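import Crest.Agent.R17.B.All

/-!
Row 27, block E (quadratic large sieve over the abstract structure, owner helper57): the analytic part, definitions.
The weight `W` of the Poisson formula is convolved (multiplicatively) with the self-dual log-normal `ph`; the new weight
`Vw` satisfies the same Poisson formulas (with `w0 = 1`) and its Mellin transform `Kv` has Gaussian decay.
-/

set_option autoImplicit false

namespace Crest.Agent.R27.E

open MeasureTheory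

noncomputable section

/-- the properties of the weight -/
structure WD (W : ℝ → ℝ) (w0 : ℝ) : Prop where
  w0_pos : 0 < w0
  cont : ContinuousOn W (Set.Ioi 0)
  nonneg : ∀ y, 0 < y → 0 ≤ W y
  low : ∃ c, 0 < c ∧ ∀ y, 0 < y → y ≤ 1 → c ≤ W y
  le : ∀ σ : ℝ, 0 < σ → ∃ C, ∀ y : ℝ, 0 < y → W y ≤ C * y ^ (-σ)
  mlow : ∀ σ₁ σ₂ : ℝ, 0 < σ₁ → ∃ b : ℝ, ∀ s : ℂ, σ₁ ≤ s.re → s.re ≤ σ₂ →
    Real.exp (-(b * (1 + |s.im|))) ≤ ‖mellin (fun y => (W y : ℂ)) s‖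

/-- the properties of the norms -/
structure ND {ι : Type} (n : ι → ℝ) : Prop where
  one_le : ∀ k, 1 ≤ n k
  summ : ∀ σ : ℝ, 1 < σ → Summable fun k => n k ^ (-σ)

/-- the Poisson formula with root number one -/
def Pois {ι : Type} (W : ℝ → ℝ) (w0 : ℝ) (n : ι → ℝ) (χ : ι → ℂ) (χ0 : ℂ) (q : ℝ) : Prop :=
  ∀ M : ℝ, 0 < M → (w0 : ℂ) * χ0 + ∑' k, χ k * (W (n k / M) : ℂ) =
    ((M / Real.sqrt q : ℝ) : ℂ) * ((w0 : ℂ) * χ0 + ∑' h, χ h * (W (n h / (q / M)) : ℂ))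

/-- `exp t * ph t = ph (-t)` -/
def ph (t : ℝ) : ℝ := Real.exp (-(t / 2) - t ^ 2 / 2)

/-- the smoothed weight -/
def Vw (W : ℝ → ℝ) (w0 : ℝ) (y : ℝ) : ℝ := (∫ t, W (y * Real.exp (-t)) * ph t) / (w0 * ∫ t, ph t)

/-- its Mellin transform -/
def Kv (W : ℝ → ℝ) (w0 : ℝ) (s : ℂ) : ℂ :=
  ((Real.sqrt (2 * Real.pi) / (w0 * ∫ t, ph t) : ℝ) : ℂ) * Complex.exp ((s - 1 / 2) ^ 2 / 2) *
    mellin (fun y => (W y : ℂ)) s

end

end Crest.Agent.R27.E
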