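import Crest.Agent.R27.E.AnV

/-! Row 27, block E: Mellin transforms of `W` and `Vw`.  Prefix for helper lemmas: `ank_`. -/

set_option autoImplicit false

namespace Crest.Agent.R27.E

open MeasureTheory Crest.Agent.R17

variable {W : ℝ → ℝ} {w0 : ℝ}

theorem ank_loc (h : WD W w0) : LocallyIntegrableOn (fun y => (W y : ℂ)) (Set.Ioi 0) :=
  (Complex.continuous_ofReal.comp_continuousOn h.cont).locallyIntegrableOn measurableSet_Ioi

theorem ank_bigO (h : WD W w0) {σ : ℝ} (hσ : 0 < σ) {l : Filter ℝ} (hl : ∀ᶠ y in l, 0 < y) :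
    (fun y => (W y : ℂ)) =O[l] (· ^ (-σ)) := by
  obtain ⟨C, hC⟩ := h.le σ hσ
  refine Asymptotics.IsBigO.of_bound C ?_
  filter_upwards [hl] with y hy
  rw [Complex.norm_real, Real.norm_of_nonneg (h.nonneg y hy),
    Real.norm_of_nonneg (Real.rpow_nonneg hy.le _)]
  exact hC y hy

/-- `mellinConvergent_of_isBigO_rpow` with `a = re s + 1`, `b = re s / 2` -/
theorem WD.mconv (h : WD W w0) {s : ℂ} (hs : 0 < s.re) : MellinConvergent (fun y => (W y : ℂ)) s := by
  exact mellinConvergent_of_isBigO_rpow (a := s.re + 1) (b := s.re / 2) (ank_loc h)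
    (ank_bigO h (by linarith) (Filter.eventually_gt_atTop 0)) (by linarith)
    (ank_bigO h (by linarith) self_mem_nhdsWithin) (by linarith)

/-- `mellin_differentiableAt_of_isBigO_rpow` -/
theorem WD.mdiff (h : WD W w0) : DifferentiableOn ℂ (mellin fun y => (W y : ℂ)) {s | 0 < s.re} := by
  intro s hs
  have hs' : 0 < s.re := hs
  exact (mellin_differentiableAt_of_isBigO_rpow (a := s.re + 1) (b := s.re / 2) (ank_loc h)
    (ank_bigO h (by linarith) (Filter.eventually_gt_atTop 0)) (by linarith)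
    (ank_bigO h (by linarith) self_mem_nhdsWithin) (by linarith)).differentiableWithinAt

/-- `y ^ (σ - 1) ≤ y ^ (σ₁ - 1) + y ^ (σ₂ - 1)` -/
theorem WD.mbd (h : WD W w0) {σ₁ : ℝ} (h1 : 0 < σ₁) (σ₂ : ℝ) :
    ∃ C : ℝ, ∀ s ∈ strip σ₁ σ₂, ‖mellin (fun y => (W y : ℂ)) s‖ ≤ C := by
  set f : ℝ → ℝ → ℝ := fun σ y => ‖(y : ℂ) ^ ((σ : ℂ) - 1) • (W y : ℂ)‖ with hf
  have hi : ∀ σ : ℝ, 0 < σ → IntegrableOn (f σ) (Set.Ioi 0) := fun σ hσ =>
    (h.mconv (s := σ) (by simpa using hσ)).norm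
  refine ⟨∫ y in Set.Ioi 0, (f σ₁ y + f σ₂ y), fun s hs => ?_⟩
  have h2 : 0 < σ₂ := h1.trans_le (hs.1.trans hs.2)
  refine norm_integral_le_of_norm_le ((hi _ h1).add (hi _ h2)) ?_
  filter_upwards [ae_restrict_mem measurableSet_Ioi] with y hy
  have hy' : 0 < y := hy
  simp only [hf, norm_smul, Complex.norm_cpow_eq_rpow_re_of_pos hy', Complex.sub_re, Complex.one_re,
    Complex.ofReal_re]
  rw [← add_mul]
  refine mul_le_mul_of_nonneg_right ?_ (norm_nonneg _)
  rcases le_total y 1 with hy1 | hy1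
  · exact le_add_of_le_of_nonneg (Real.rpow_le_rpow_of_exponent_ge hy' hy1 (by linarith [hs.1]))
      (Real.rpow_nonneg hy'.le _)
  · exact le_add_of_nonneg_of_le (Real.rpow_nonneg hy'.le _)
      (Real.rpow_le_rpow_of_exponent_le hy1 (by linarith [hs.2]))

theorem WD.Kv_diff (h : WD W w0) : DifferentiableOn ℂ (Kv W w0) {s | 0 < s.re} := by
  refine DifferentiableOn.mul (Differentiable.differentiableOn ?_) h.mdiff
  fun_prop

theorem WD.Kv_bd (h : WD W w0) {σ₁ : ℝ} (h1 : 0 < σ₁) (σ₂ : ℝ) :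
    ∃ C : ℝ, ∀ s ∈ strip σ₁ σ₂, ‖Kv W w0 s‖ ≤ C * Real.exp (-(s.im ^ 2 / 2)) := by
  obtain ⟨C, hC⟩ := h.mbd h1 σ₂
  refine ⟨‖((Real.sqrt (2 * Real.pi) / (w0 * ∫ t, ph t) : ℝ) : ℂ)‖ *
    Real.exp (((σ₁ - 1 / 2) ^ 2 + (σ₂ - 1 / 2) ^ 2) / 2) * C, fun s hs => ?_⟩
  have hre : ((s - 1 / 2) ^ 2 / 2).re = (s.re - 1 / 2) ^ 2 / 2 + -(s.im ^ 2 / 2) := by
    simp [sq]; ring
  have hb : (s.re - 1 / 2) ^ 2 / 2 ≤ ((σ₁ - 1 / 2) ^ 2 + (σ₂ - 1 / 2) ^ 2) / 2 := by
    have a1 := hs.1
    have a2 := hs.2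
    rcases le_total s.re (1 / 2) with h' | h' <;> nlinarith [sq_nonneg (σ₁ - 1 / 2), sq_nonneg (σ₂ - 1 / 2)]
  rw [Kv, norm_mul, norm_mul, Complex.norm_exp, hre, Real.exp_add]
  calc _ ≤ ‖((Real.sqrt (2 * Real.pi) / (w0 * ∫ t, ph t) : ℝ) : ℂ)‖ *
        (Real.exp (((σ₁ - 1 / 2) ^ 2 + (σ₂ - 1 / 2) ^ 2) / 2) * Real.exp (-(s.im ^ 2 / 2))) * C := by
        gcongr
        exact hC s hs
    _ = _ := by ring

/-- Gaussian integral (`integral_cexp_quadratic` or `fourierIntegral_gaussian`):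
`ph t = VI σ (√(2π) exp ((s - 1/2)²/2) exp (-s t))` -/
theorem ph_rep (σ t : ℝ) : (ph t : ℂ) = VI σ fun s =>
    (Real.sqrt (2 * Real.pi) : ℂ) * Complex.exp ((s - 1 / 2) ^ 2 / 2) * Complex.exp (-(s * t)) := by
  have h1 : ∀ y : ℝ, (Real.sqrt (2 * Real.pi) : ℂ) * Complex.exp ((σ + y * Complex.I - 1 / 2) ^ 2 / 2) *
      Complex.exp (-((σ + y * Complex.I) * t)) = (Real.sqrt (2 * Real.pi) : ℂ) *
      Complex.exp ((-1 / 2 : ℂ) * y ^ 2 + ((σ - 1 / 2 - t) * Complex.I) * y +
        ((σ - 1 / 2) ^ 2 / 2 - σ * t)) := fun y => by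
    rw [mul_assoc, ← Complex.exp_add]
    congr 2
    linear_combination (y ^ 2 / 2 : ℂ) * Complex.I_sq
  have h2 : ((Real.pi : ℂ) / -(-1 / 2)) ^ (1 / 2 : ℂ) = (Real.sqrt (2 * Real.pi) : ℂ) := by
    rw [Real.sqrt_eq_rpow, Complex.ofReal_cpow (by positivity)]
    congr 1
    · push_cast; ring
    · push_cast; ring
  have h3 : (Real.sqrt (2 * Real.pi) : ℂ) * (Real.sqrt (2 * Real.pi) : ℂ) = 2 * Real.pi := by
    rw [← Complex.ofReal_mul, Real.mul_self_sqrt (by positivity)]; push_cast; ring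
  have h4 : ((σ - 1 / 2) ^ 2 / 2 - σ * t : ℂ) - ((σ - 1 / 2 - t) * Complex.I) ^ 2 / (4 * (-1 / 2)) =
      ((-(t / 2) - t ^ 2 / 2 : ℝ) : ℂ) := by
    push_cast
    linear_combination ((σ - 1 / 2 - t) ^ 2 / 2 : ℂ) * Complex.I_sq
  have hpi : (Real.pi : ℂ) ≠ 0 := Complex.ofReal_ne_zero.2 Real.pi_ne_zero
  rw [VI]
  simp only [h1]
  rw [integral_const_mul, integral_cexp_quadratic (by norm_num), h2, h4, ← mul_assoc (Real.sqrt _ : ℂ), h3,
    ph, Complex.ofReal_exp]
  push_cast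
  field_simp

theorem ankb_cpow (a : ℝ) (z : ℂ) : ((Real.exp a : ℝ) : ℂ) ^ z = Complex.exp (a * z) := by
  rw [Complex.cpow_def_of_ne_zero (Complex.ofReal_ne_zero.2 (Real.exp_pos a).ne'),
    ← Complex.ofReal_log (Real.exp_pos a).le, Real.log_exp]

/-- the Mellin transform in the variable `u = y e^{-t}` (`integral_comp_exp`-type substitution, e.g.
`integral_image_eq_integral_abs_deriv_smul` or the proof of `mellin_eq_fourier`) -/
theorem WD.mel_exp (h : WD W w0) {s : ℂ} (hs : 0 < s.re) {y : ℝ} (hy : 0 < y) :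
    Integrable (fun t : ℝ => (W (y * Real.exp (-t)) : ℂ) * Complex.exp (-(s * t))) ∧
    ∫ t : ℝ, (W (y * Real.exp (-t)) : ℂ) * Complex.exp (-(s * t)) =
      (y : ℂ) ^ (-s) * mellin (fun y => (W y : ℂ)) s := by
  obtain ⟨L, rfl⟩ : ∃ L, y = Real.exp L := ⟨Real.log y, (Real.exp_log hy).symm⟩
  have hd : ∀ t ∈ (Set.univ : Set ℝ), HasDerivWithinAt (fun t : ℝ => Real.exp L * Real.exp (-t))
      (-(Real.exp L * Real.exp (-t))) Set.univ t := fun t _ => by
    have := (((Real.hasDerivAt_exp (-t)).comp t (hasDerivAt_neg t)).const_mul (Real.exp L))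
    rw [mul_neg_one, mul_neg] at this
    exact this.hasDerivWithinAt
  have hi : Set.InjOn (fun t : ℝ => Real.exp L * Real.exp (-t)) Set.univ := fun a _ b _ hab =>
    neg_injective (Real.exp_injective (mul_left_cancel₀ hy.ne' hab))
  have him : (fun t : ℝ => Real.exp L * Real.exp (-t)) '' Set.univ = Set.Ioi 0 := by
    ext u
    constructor
    · rintro ⟨t, -, rfl⟩
      exact mul_pos hy (Real.exp_pos _)
    · intro hu
      refine ⟨L - Real.log u, trivial, ?_⟩
      change Real.exp L * Real.exp (-(L - Real.log u)) = u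
      rw [← Real.exp_add, show L + -(L - Real.log u) = Real.log u by ring, Real.exp_log hu]
  have key : ∀ t : ℝ, (W (Real.exp L * Real.exp (-t)) : ℂ) * Complex.exp (-(s * t)) =
      ((Real.exp L : ℝ) : ℂ) ^ (-s) * (|-(Real.exp L * Real.exp (-t))| •
        (((Real.exp L * Real.exp (-t) : ℝ) : ℂ) ^ (s - 1) • (W (Real.exp L * Real.exp (-t)) : ℂ))) := by
    intro t
    rw [abs_neg, ← Real.exp_add, abs_of_pos (Real.exp_pos _), ankb_cpow, ankb_cpow, Complex.real_smul,
      smul_eq_mul, Complex.ofReal_exp, ← mul_assoc, ← mul_assoc, ← Complex.exp_add, ← Complex.exp_add,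
      mul_comm]
    congr 2
    push_cast
    ring
  simp only [key]
  constructor
  · have h1 := h.mconv hs
    rw [MellinConvergent, ← him,
      integrableOn_image_iff_integrableOn_abs_deriv_smul MeasurableSet.univ hd hi,
      integrableOn_univ] at h1
    exact h1.const_mul _
  · rw [integral_const_mul, mellin, ← him,
      integral_image_eq_integral_abs_deriv_smul MeasurableSet.univ hd hi, Measure.restrict_univ]

/-- `ph_rep`, Fubini (`integral_integral_swap`; the norm of the integrand is a product of a function of `t`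
(`mel_exp` at `s = σ`) and a Gaussian), `mel_exp` -/
theorem WD.V_rep (h : WD W w0) {σ : ℝ} (hσ : 0 < σ) {y : ℝ} (hy : 0 < y) :
    (Vw W w0 y : ℂ) = VI σ fun s => Kv W w0 s * (y : ℂ) ^ (-s) := by
  have hre : ∀ τ : ℝ, 0 < ((σ : ℂ) + τ * Complex.I).re := fun τ => by simpa using hσ
  set G : ℝ → ℂ := fun τ =>
    (Real.sqrt (2 * Real.pi) : ℂ) * Complex.exp ((σ + τ * Complex.I - 1 / 2) ^ 2 / 2) with hG
  have hGi : Integrable G := by
    refine ((integrable_cexp_quadratic (b := 1 / 2) (by norm_num) ((σ - 1 / 2) * Complex.I)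
      ((σ - 1 / 2) ^ 2 / 2)).const_mul (Real.sqrt (2 * Real.pi) : ℂ)).congr
      (Filter.Eventually.of_forall fun τ => ?_)
    simp only [hG]
    congr 2
    linear_combination (-(τ : ℂ) ^ 2 / 2) * Complex.I_sq
  have hWc : Continuous fun t : ℝ => W (y * Real.exp (-t)) :=
    h.cont.comp_continuous (by fun_prop) fun t => mul_pos hy (Real.exp_pos _)
  have hF : Integrable (Function.uncurry fun t τ : ℝ => (W (y * Real.exp (-t)) : ℂ) *
      (G τ * Complex.exp (-((σ + τ * Complex.I) * t)))) (volume.prod volume) := by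
    refine ((h.mel_exp (s := σ) (by simpa using hσ) hy).1.mul_prod hGi).mono ?_
      (Filter.Eventually.of_forall fun p => le_of_eq ?_)
    · refine Continuous.aestronglyMeasurable ?_
      refine (Complex.continuous_ofReal.comp (hWc.comp continuous_fst)).mul ?_
      simp only [hG]
      fun_prop
    · simp only [Function.uncurry, norm_mul, Complex.norm_exp]
      have : (-((σ + p.2 * Complex.I) * (p.1 : ℂ))).re = (-((σ : ℂ) * p.1)).re := by simp
      rw [this]
      ring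
  have h1 : ((∫ t, W (y * Real.exp (-t)) * ph t : ℝ) : ℂ) = ((1 / (2 * Real.pi) : ℝ) : ℂ) *
      ∫ τ : ℝ, G τ * ((y : ℂ) ^ (-(σ + τ * Complex.I)) *
        mellin (fun y => (W y : ℂ)) (σ + τ * Complex.I)) :=
    calc ((∫ t, W (y * Real.exp (-t)) * ph t : ℝ) : ℂ)
        = ∫ t : ℝ, ((1 / (2 * Real.pi) : ℝ) : ℂ) * ∫ τ : ℝ, (W (y * Real.exp (-t)) : ℂ) *
            (G τ * Complex.exp (-((σ + τ * Complex.I) * t))) := by
          rw [← integral_complex_ofReal]
          refine integral_congr_ae (Filter.Eventually.of_forall fun t => ?_)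
          simp only [Complex.ofReal_mul (W _), ph_rep σ t, VI, integral_const_mul]
          ring
      _ = _ := by
          rw [integral_const_mul, integral_integral_swap hF]
          congr 1
          refine integral_congr_ae (Filter.Eventually.of_forall fun τ => ?_)
          simp only [← (h.mel_exp (hre τ) hy).2, ← integral_const_mul]
          exact integral_congr_ae (Filter.Eventually.of_forall fun t => by ring)
  rw [Vw, Complex.ofReal_div, h1, VI, mul_div_assoc, ← integral_div]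
  congr 1
  refine integral_congr_ae (Filter.Eventually.of_forall fun τ => ?_)
  simp only [hG, Kv, Complex.ofReal_div]
  ring

end Crest.Agent.R27.E
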