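import Crest.Agent.R27.E.AnDefs

/-! Row 27, block E: the smoothed weight.  Prefix for helper lemmas: `anv_`. -/

set_option autoImplicit false

namespace Crest.Agent.R27.E

open MeasureTheory

variable {W : ℝ → ℝ} {w0 : ℝ}

theorem anv_ph_pos (t : ℝ) : 0 < ph t := Real.exp_pos _

theorem anv_ph_cont : Continuous ph := by unfold ph; fun_prop

/-- complete the square: `exp (σ t) * ph t = exp ((σ - 1/2)²/2) * exp (-(1/2) (t - (σ - 1/2))²)`;
`integrable_exp_neg_mul_sq`, `Integrable.comp_sub_right` -/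
theorem integrable_ph (σ : ℝ) : Integrable fun t => Real.exp (σ * t) * ph t := by
  have h := ((integrable_exp_neg_mul_sq (b := 1 / 2) (by norm_num)).comp_sub_right (σ - 1 / 2)).const_mul
    (Real.exp ((σ - 1 / 2) ^ 2 / 2))
  refine h.congr (Filter.Eventually.of_forall fun t => ?_)
  simp only [ph, ← Real.exp_add]
  congr 1
  ring

theorem anv_int_ph : Integrable ph := by simpa using integrable_ph 0

theorem int_ph_pos : 0 < ∫ t, ph t := by
  exact integral_pos_of_integrable_nonneg_nonzero (x := 0) anv_ph_cont anv_int_ph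
    (fun t => (anv_ph_pos t).le) (anv_ph_pos 0).ne'

theorem anv_rpow {y : ℝ} (hy : 0 < y) (σ t : ℝ) :
    (y * Real.exp (-t)) ^ (-σ) = y ^ (-σ) * Real.exp (σ * t) := by
  rw [Real.mul_rpow hy.le (Real.exp_pos _).le, ← Real.exp_mul]
  congr 2
  ring

theorem anv_le {σ C y : ℝ} (hC : ∀ y : ℝ, 0 < y → W y ≤ C * y ^ (-σ)) (hy : 0 < y) (t : ℝ) :
    W (y * Real.exp (-t)) * ph t ≤ C * y ^ (-σ) * (Real.exp (σ * t) * ph t) := by
  have := hC (y * Real.exp (-t)) (by positivity)
  rw [anv_rpow hy, ← mul_assoc] at this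
  rw [← mul_assoc]
  exact mul_le_mul_of_nonneg_right this (anv_ph_pos t).le

/-- dominated by `C y⁻¹ exp t * ph t`; the integrand is continuous in `t` -/
theorem WD.integrable (h : WD W w0) {y : ℝ} (hy : 0 < y) :
    Integrable fun t => W (y * Real.exp (-t)) * ph t := by
  obtain ⟨C, hC⟩ := h.le 1 one_pos
  have hc : Continuous fun t => W (y * Real.exp (-t)) * ph t :=
    (h.cont.comp_continuous (by fun_prop) fun t => Set.mem_Ioi.2 (by positivity)).mul anv_ph_cont
  refine ((integrable_ph 1).const_mul (C * y ^ (-1 : ℝ))).mono' hc.aestronglyMeasurable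
    (Filter.Eventually.of_forall fun t => ?_)
  rw [Real.norm_of_nonneg (mul_nonneg (h.nonneg _ (by positivity)) (anv_ph_pos t).le)]
  exact anv_le hC hy t

theorem WD.V_nonneg (h : WD W w0) {y : ℝ} (hy : 0 < y) : 0 ≤ Vw W w0 y := by
  exact div_nonneg (integral_nonneg fun t => mul_nonneg (h.nonneg _ (by positivity)) (anv_ph_pos t).le)
    (mul_pos h.w0_pos int_ph_pos).le

/-- for `t ≥ 0` and `y ≤ 1`: `c ≤ W (y e^{-t})`; `0 < ∫_{t > 0} ph` -/
theorem WD.V_low (h : WD W w0) : ∃ c, 0 < c ∧ ∀ y, 0 < y → y ≤ 1 → c ≤ Vw W w0 y := by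
  obtain ⟨c, hc, hl⟩ := h.low
  have hI : 0 < ∫ t in Set.Ioi (0 : ℝ), ph t := by
    rw [setIntegral_pos_iff_support_of_nonneg_ae (Filter.Eventually.of_forall fun t => (anv_ph_pos t).le)
      anv_int_ph.integrableOn]
    have : Function.support ph = Set.univ := Set.eq_univ_of_forall fun t => (anv_ph_pos t).ne'
    simp [this]
  have hD := mul_pos h.w0_pos int_ph_pos
  refine ⟨c * (∫ t in Set.Ioi (0 : ℝ), ph t) / (w0 * ∫ t, ph t), by positivity, fun y hy hy1 => ?_⟩
  refine div_le_div_of_nonneg_right ?_ hD.le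
  refine le_trans ?_ (setIntegral_le_integral (s := Set.Ioi 0) (h.integrable hy)
    (Filter.Eventually.of_forall fun t => mul_nonneg (h.nonneg _ (by positivity)) (anv_ph_pos t).le))
  rw [← integral_const_mul]
  refine setIntegral_mono_on (anv_int_ph.const_mul c).integrableOn (h.integrable hy).integrableOn
    measurableSet_Ioi fun t ht => mul_le_mul_of_nonneg_right (hl _ (by positivity) ?_) (anv_ph_pos t).le
  exact mul_le_one₀ hy1 (Real.exp_pos _).le (Real.exp_le_one_iff.2 (neg_nonpos.2 (le_of_lt ht)))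

/-- `(y e^{-t}) ^ (-σ) = y ^ (-σ) exp (σ t)` -/
theorem WD.V_le (h : WD W w0) {σ : ℝ} (hσ : 0 < σ) : ∃ C, ∀ y : ℝ, 0 < y → Vw W w0 y ≤ C * y ^ (-σ) := by
  obtain ⟨C, hC⟩ := h.le σ hσ
  have hD := mul_pos h.w0_pos int_ph_pos
  refine ⟨C * (∫ t, Real.exp (σ * t) * ph t) / (w0 * ∫ t, ph t), fun y hy => ?_⟩
  rw [div_mul_eq_mul_div]
  refine div_le_div_of_nonneg_right ?_ hD.le
  rw [mul_right_comm, ← integral_const_mul]
  exact integral_mono (h.integrable hy) ((integrable_ph σ).const_mul _) fun t => anv_le hC hy t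

theorem anv_int_tsum {ι : Type} [Countable ι] {F : ι → ℝ → ℂ} (hF : ∀ i, Integrable (F i))
    (hs : Summable fun i => ∫ y : ℝ, ‖F i y‖) : Integrable fun y => ∑' i, F i y := by
  refine ⟨(AEMeasurable.tsum fun i => (hF i).1.aemeasurable).aestronglyMeasurable, ?_⟩
  refine lt_of_le_of_lt (lintegral_mono fun y => enorm_tsum_le_tsum_enorm) ?_
  rw [lintegral_tsum fun i => (hF i).1.enorm]
  simp only [← ofReal_integral_norm_eq_lintegral_enorm (hF _)]
  rw [← ENNReal.ofReal_tsum_of_nonneg (fun i => integral_nonneg fun _ => norm_nonneg _) hs]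
  exact ENNReal.ofReal_lt_top

theorem anv_key (h : WD W w0) {ι : Type} [Countable ι] {n : ι → ℝ} (hn : ND n) {χ : ι → ℂ}
    (hχ : ∀ k, ‖χ k‖ ≤ 1) (χ0 : ℂ) {M : ℝ} (hM : 0 < M) :
    ∫ t, ((w0 : ℂ) * χ0 + ∑' k, χ k * (W (n k / (M * Real.exp t)) : ℂ)) * (ph t : ℂ) =
      ((w0 * ∫ t, ph t : ℝ) : ℂ) * (((1 : ℝ) : ℂ) * χ0 + ∑' k, χ k * (Vw W w0 (n k / M) : ℂ)) := by
  have hc : 0 < w0 * ∫ t, ph t := mul_pos h.w0_pos int_ph_pos
  have hy : ∀ k, 0 < n k / M := fun k => div_pos (one_pos.trans_le (hn.one_le k)) hM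
  have hV : ∀ y, ∫ t, W (y * Real.exp (-t)) * ph t = (w0 * ∫ t, ph t) * Vw W w0 y := fun y => by
    rw [Vw, mul_div_cancel₀ _ hc.ne']
  set F : ι → ℝ → ℂ := fun k t => χ k * ((W (n k / M * Real.exp (-t)) * ph t : ℝ) : ℂ) with hFd
  have hF : ∀ k, Integrable (F k) := fun k => (h.integrable (hy k)).ofReal.const_mul _
  obtain ⟨C, hC⟩ := h.V_le two_pos
  have hs : Summable fun k => ∫ t, ‖F k t‖ := by
    refine Summable.of_nonneg_of_le (fun k => integral_nonneg fun _ => norm_nonneg _) (fun k => ?_)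
      ((hn.summ 2 one_lt_two).mul_left ((w0 * ∫ t, ph t) * (C / M ^ (-2 : ℝ))))
    refine (integral_mono (hF k).norm (h.integrable (hy k)) fun t => ?_).trans ?_
    · have h0 : 0 ≤ W (n k / M * Real.exp (-t)) * ph t :=
        mul_nonneg (h.nonneg _ (mul_pos (hy k) (Real.exp_pos _))) (Real.exp_pos _).le
      simp only [hFd]
      rw [norm_mul, Complex.norm_real, Real.norm_of_nonneg h0]
      exact mul_le_of_le_one_left h0 (hχ k)
    · rw [hV, mul_assoc (w0 * ∫ t, ph t)]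
      refine mul_le_mul_of_nonneg_left ((hC _ (hy k)).trans_eq ?_) hc.le
      rw [Real.div_rpow (zero_le_one.trans (hn.one_le k)) hM.le]
      ring
  have hph : Integrable fun t => (ph t : ℂ) := by simpa using (integrable_ph 0).ofReal (𝕜 := ℂ)
  have e : ∀ t, ((w0 : ℂ) * χ0 + ∑' k, χ k * (W (n k / (M * Real.exp t)) : ℂ)) * (ph t : ℂ) =
      (w0 : ℂ) * χ0 * (ph t : ℂ) + ∑' k, F k t := fun t => by
    rw [add_mul, ← tsum_mul_right]
    congr 1
    refine tsum_congr fun k => ?_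
    simp only [hFd]
    rw [Real.exp_neg, ← div_eq_mul_inv, div_div, Complex.ofReal_mul, mul_assoc]
  simp only [e]
  rw [integral_add (hph.const_mul _) (anv_int_tsum hF hs), integral_const_mul, integral_complex_ofReal,
    ← (hasSum_integral_of_summable_integral_norm hF hs).tsum_eq, mul_add, ← tsum_mul_left]
  congr 1
  · push_cast
    ring
  · refine tsum_congr fun k => ?_
    simp only [hFd]
    rw [integral_const_mul, integral_complex_ofReal, hV, Complex.ofReal_mul, mul_left_comm]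

/-- Multiply the formula at `M e^t` by `ph t` and integrate; exchange `∑'` and `∫`
(`hasSum_integral_of_summable_integral_norm`, `W y ≤ C y^(-2)`); on the dual side `t ↦ -t`
(`integral_neg_eq_self`), `exp t * ph t = ph (-t)`. -/
theorem WD.V_pois (h : WD W w0) {ι : Type} [Countable ι] {n : ι → ℝ} (hn : ND n) {χ : ι → ℂ}
    (hχ : ∀ k, ‖χ k‖ ≤ 1) {χ0 : ℂ} {q : ℝ} (hq : 0 < q) (hp : Pois W w0 n χ χ0 q) :
    Pois (Vw W w0) 1 n χ χ0 q := by
  intro M hM
  have hc : ((w0 * ∫ t, ph t : ℝ) : ℂ) ≠ 0 := Complex.ofReal_ne_zero.2 (mul_pos h.w0_pos int_ph_pos).ne'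
  refine mul_left_cancel₀ hc ?_
  rw [mul_left_comm, ← anv_key h hn hχ χ0 hM, ← anv_key h hn hχ χ0 (div_pos hq hM), ← integral_const_mul,
    ← integral_neg_eq_self]
  refine integral_congr_ae (ae_of_all _ fun t => ?_)
  have e1 : q / (M * Real.exp (-t)) = q / M * Real.exp t := by
    rw [Real.exp_neg, ← div_div, div_inv_eq_mul]
  have e2 : Real.exp (-t) * ph (-t) = ph t := by
    rw [ph, ph, ← Real.exp_add]
    congr 1
    ring
  simp only
  rw [hp _ (mul_pos hM (Real.exp_pos _)), e1, ← e2]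
  push_cast
  ring

end Crest.Agent.R27.E
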