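import Crest.Agent.R27.E.AnK

/-! Row 27, block E: continuation of the zeta function, the sum over squares.  Prefix for helper lemmas: `anz_`. -/

set_option autoImplicit false

namespace Crest.Agent.R27.E

open MeasureTheory Crest.Agent.R17

variable {W : ℝ → ℝ} {w0 : ℝ} {ι : Type} [Countable ι] {n : ι → ℝ}

/-- the theta function -/
noncomputable def tht (W : ℝ → ℝ) (n : ι → ℝ) (t : ℝ) : ℂ := ∑' k, (W (n k * t) : ℂ)

omit [Countable ι] in
theorem anz_term (h : WD W w0) (hn : ND n) {σ C : ℝ} (hC : ∀ y : ℝ, 0 < y → W y ≤ C * y ^ (-σ))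
    (k : ι) {t : ℝ} (ht : 0 < t) : ‖(W (n k * t) : ℂ)‖ ≤ C * t ^ (-σ) * n k ^ (-σ) := by
  have hk : 0 < n k := one_pos.trans_le (hn.one_le k)
  rw [Complex.norm_real, Real.norm_of_nonneg (h.nonneg _ (mul_pos hk ht))]
  refine (hC _ (mul_pos hk ht)).trans (le_of_eq ?_)
  rw [Real.mul_rpow hk.le ht.le]
  ring

/-- `W y ≤ C y^(-σ)`, `σ ≥ 2`; continuity on `Ici a`, `a > 0` by `continuousOn_tsum` -/
theorem tht_prop (h : WD W w0) (hn : ND n) : ContinuousOn (tht W n) (Set.Ioi 0) ∧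
    ∀ σ : ℝ, 2 ≤ σ → ∃ C : ℝ, ∀ t : ℝ, 0 < t → ‖tht W n t‖ ≤ C * t ^ (-σ) := by
  constructor
  · obtain ⟨C, hC⟩ := h.le 2 two_pos
    have hC0 : 0 ≤ C := by
      have := (h.nonneg 1 one_pos).trans (hC 1 one_pos)
      simpa using this
    intro t₀ ht₀
    have ha : 0 < t₀ / 2 := half_pos ht₀
    have hc : ContinuousOn (tht W n) (Set.Ioi (t₀ / 2)) := by
      refine continuousOn_tsum (u := fun k => C * (t₀ / 2) ^ (-2 : ℝ) * n k ^ (-2 : ℝ))
        (fun k => ?_) ((hn.summ 2 one_lt_two).mul_left _) fun k t ht => ?_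
      · have hk : 0 < n k := one_pos.trans_le (hn.one_le k)
        exact Complex.continuous_ofReal.comp_continuousOn (h.cont.comp
          (continuous_const.mul continuous_id).continuousOn fun t ht => mul_pos hk (ha.trans ht))
      · have hk : 0 < n k := one_pos.trans_le (hn.one_le k)
        refine (anz_term h hn hC k (ha.trans ht)).trans ?_
        refine mul_le_mul_of_nonneg_right (mul_le_mul_of_nonneg_left ?_ hC0) (by positivity)
        exact Real.rpow_le_rpow_of_nonpos ha (le_of_lt ht) (by norm_num)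
    exact (hc.continuousAt (Ioi_mem_nhds (half_lt_self ht₀))).continuousWithinAt
  · intro σ hσ
    obtain ⟨C, hC⟩ := h.le σ (by linarith)
    have hs := hn.summ σ (by linarith)
    refine ⟨C * ∑' k, n k ^ (-σ), fun t ht => ?_⟩
    refine (tsum_of_norm_bounded (hs.mul_left (C * t ^ (-σ))).hasSum
      fun k => anz_term h hn hC k ht).trans (le_of_eq ?_)
    rw [tsum_mul_left]
    ring

/-- `mellin_comp_mul_left`, `hasSum_integral_of_summable_integral_norm` -/
theorem mellin_tht (h : WD W w0) (hn : ND n) {s : ℂ} (hs : 1 < s.re) :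
    mellin (tht W n) s = mellin (fun y => (W y : ℂ)) s * ∑' k, (n k : ℂ) ^ (-s) := by
  have hpos : ∀ k, 0 < n k := fun k => one_pos.trans_le (hn.one_le k)
  have hconv : ∀ (z : ℂ), 0 < z.re → ∀ k, MellinConvergent (fun t => (W (n k * t) : ℂ)) z :=
    fun z hz k => (MellinConvergent.comp_mul_left (f := fun y => (W y : ℂ)) (hpos k)).2 (h.mconv hz)
  have hval : ∀ (z : ℂ) k, mellin (fun t => (W (n k * t) : ℂ)) z =
      (n k : ℂ) ^ (-z) * mellin (fun y => (W y : ℂ)) z := fun z k =>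
    mellin_comp_mul_left (fun y => (W y : ℂ)) z (hpos k)
  have hs0 : 0 < s.re := one_pos.trans hs
  have hnorm : ∀ k, ∫ t in Set.Ioi (0 : ℝ), ‖(t : ℂ) ^ (s - 1) • (W (n k * t) : ℂ)‖ =
      n k ^ (-s.re) * (mellin (fun y => (W y : ℂ)) (s.re : ℂ)).re := by
    intro k
    have e1 : ((∫ t in Set.Ioi (0 : ℝ), ‖(t : ℂ) ^ (s - 1) • (W (n k * t) : ℂ)‖ : ℝ) : ℂ) =
        mellin (fun t => (W (n k * t) : ℂ)) (s.re : ℂ) := by
      rw [mellin, ← integral_complex_ofReal]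
      refine setIntegral_congr_fun measurableSet_Ioi fun t ht => ?_
      have ht' : 0 < t := ht
      rw [norm_smul, Complex.norm_cpow_eq_rpow_re_of_pos ht', Complex.norm_real,
        Real.norm_of_nonneg (h.nonneg _ (mul_pos (hpos k) ht')), smul_eq_mul, Complex.ofReal_mul,
        Complex.ofReal_cpow ht'.le]
      simp
    have e2 := congrArg Complex.re e1
    rw [Complex.ofReal_re, hval, ← Complex.ofReal_neg, ← Complex.ofReal_cpow (hpos k).le,
      Complex.re_ofReal_mul] at e2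
    exact e2
  have key := hasSum_integral_of_summable_integral_norm (μ := volume.restrict (Set.Ioi (0 : ℝ)))
    (F := fun k t => (t : ℂ) ^ (s - 1) • (W (n k * t) : ℂ)) (fun k => hconv s hs0 k)
    (by simp only [hnorm]; exact (hn.summ _ hs).mul_right _)
  have e3 : mellin (tht W n) s =
      ∫ t in Set.Ioi (0 : ℝ), ∑' k, (t : ℂ) ^ (s - 1) • (W (n k * t) : ℂ) := by
    simp only [mellin, tht, smul_eq_mul, tsum_mul_left]
  rw [e3, ← key.tsum_eq, ← tsum_mul_left]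
  exact tsum_congr fun k => (hval s k).trans (mul_comm _ _)

theorem anz_strip {f : ℝ → ℂ} (hf : ∀ s : ℂ, MellinConvergent f s) (σ₁ σ₂ : ℝ) :
    ∃ B : ℝ, ∀ s ∈ strip σ₁ σ₂, ‖mellin f s‖ ≤ B := by
  have hi := (hf σ₁).norm.add (hf σ₂).norm
  refine ⟨_, fun s hs => norm_integral_le_of_norm_le hi ?_⟩
  refine (ae_restrict_iff' measurableSet_Ioi).2 (Filter.Eventually.of_forall fun t ht => ?_)
  have ht' : 0 < t := ht
  simp only [Pi.add_apply, norm_smul, Complex.norm_cpow_eq_rpow_re_of_pos ht', ← add_mul]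
  refine mul_le_mul_of_nonneg_right ?_ (norm_nonneg _)
  simp only [Complex.sub_re, Complex.ofReal_re, Complex.one_re]
  rcases le_total t 1 with h1 | h1
  · exact le_add_of_le_of_nonneg (Real.rpow_le_rpow_of_exponent_ge ht' h1 (by linarith [hs.1]))
      (by positivity)
  · exact le_add_of_nonneg_of_le (by positivity)
      (Real.rpow_le_rpow_of_exponent_le h1 (by linarith [hs.2]))

/-- `WeakFEPair` with `f = g = w0 + tht`, `k = 1`, `ε = 1`, `f₀ = g₀ = w0` (`hp` at `M = 1/t`, see `Ku.mel_pair` in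
`R27/Ku/Mel.lean`); `L s = (s - 1) Λ₀ s - w0 (s - 1) / s + w0`; `Λ₀ = mellin f_modif` converges everywhere and is bounded
on strips (as `WD.mbd`) -/
theorem lam_cont (h : WD W w0) (hn : ND n) (hp : Pois W w0 n (fun _ => 1) 1 1) : ∃ L : ℂ → ℂ,
    DifferentiableOn ℂ L {s | 0 < s.re} ∧ (∀ s : ℂ, 1 < s.re → L s = (s - 1) * mellin (tht W n) s) ∧
    ∀ σ₁ σ₂ : ℝ, 0 < σ₁ → ∃ C : ℝ, ∀ s ∈ strip σ₁ σ₂, ‖L s‖ ≤ C * (1 + |s.im|) := by
  obtain ⟨hc, hb⟩ := tht_prop h hn
  have hint : LocallyIntegrableOn (fun t => (w0 : ℂ) + tht W n t) (Set.Ioi 0) :=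
    (continuousOn_const.add hc).locallyIntegrableOn measurableSet_Ioi
  have htop : ∀ r : ℝ, (fun t => (w0 : ℂ) + tht W n t - w0) =O[Filter.atTop] fun t : ℝ => t ^ r := by
    intro r
    obtain ⟨C, hC⟩ := hb (max 2 (-r)) (le_max_left _ _)
    refine Asymptotics.IsBigO.of_bound |C| ?_
    filter_upwards [Filter.eventually_ge_atTop 1] with t ht
    have ht0 : 0 < t := one_pos.trans_le ht
    rw [add_sub_cancel_left, Real.norm_of_nonneg (by positivity)]
    refine (hC t ht0).trans (mul_le_mul (le_abs_self C) ?_ (by positivity) (abs_nonneg C))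
    exact Real.rpow_le_rpow_of_exponent_le ht (by linarith [le_max_right 2 (-r)])
  let P : WeakFEPair ℂ :=
    { f := fun t => (w0 : ℂ) + tht W n t
      g := fun t => (w0 : ℂ) + tht W n t
      k := 1
      ε := 1
      f₀ := w0
      g₀ := w0
      hf_int := hint
      hg_int := hint
      hk := one_pos
      hε := one_ne_zero
      h_feq := fun x hx => by
        have := hp x hx
        simp only [mul_one, one_mul, Real.sqrt_one, div_one, div_div_eq_mul_div] at this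
        rw [Real.rpow_one, one_mul, smul_eq_mul]
        simp only [tht, mul_one_div]
        exact this
      hf_top := htop
      hg_top := htop }
  refine ⟨fun s => (s - 1) * P.Λ₀ s - w0 * (s - 1) / s + w0, ?_, fun s hs => ?_, fun σ₁ σ₂ h1 => ?_⟩
  · intro s hs
    have hs0 : s ≠ 0 := by
      rintro rfl
      simp at hs
    refine DifferentiableAt.differentiableWithinAt ?_
    exact (((differentiableAt_id.sub_const 1).mul (P.differentiable_Λ₀ s)).sub
      (((differentiableAt_id.sub_const 1).const_mul _).div differentiableAt_id hs0)).add_const _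
  · have hs0 : s ≠ 0 := by
      rintro rfl
      simp at hs
      linarith
    have hs1 : 1 - s ≠ 0 := by
      intro h
      have : s = 1 := by linear_combination -h
      rw [this] at hs
      simp at hs
    have h2 := (P.hasMellin (s := s) hs).2
    have h3 : (fun t => P.f t - P.f₀) = tht W n := funext fun t => add_sub_cancel_left _ _
    rw [h3] at h2
    rw [h2]
    simp only [WeakFEPair.Λ, P, smul_eq_mul, Complex.ofReal_one]
    field_simp
    ring
  · obtain ⟨B, hB⟩ := anz_strip (f := P.f_modif)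
      (fun s => (P.isStrongFEPair_toStrongFEPair.hasMellin s).1) σ₁ σ₂
    have hw := h.w0_pos
    refine ⟨(|σ₁| + |σ₂| + 1) * |B| + w0 / σ₁, fun s hs => ?_⟩
    have hs1 : σ₁ ≤ ‖s‖ := hs.1.trans (Complex.re_le_norm s)
    have hs0 : s ≠ 0 := by
      rintro rfl
      simp at hs1
      linarith
    have e : (s - 1) * P.Λ₀ s - w0 * (s - 1) / s + w0 = (s - 1) * P.Λ₀ s + w0 / s := by
      field_simp
      ring
    have h2 : ‖s - 1‖ ≤ (|σ₁| + |σ₂| + 1) * (1 + |s.im|) := by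
      have a1 := Complex.norm_le_abs_re_add_abs_im (s - 1)
      have a2 : |(s - 1).re| ≤ |σ₁| + |σ₂| + 1 := by
        simp only [Complex.sub_re, Complex.one_re]
        rw [abs_le]
        constructor <;> linarith [hs.1, hs.2, le_abs_self σ₂, abs_nonneg σ₁, abs_nonneg σ₂]
      have a3 : (s - 1).im = s.im := by simp
      rw [a3] at a1
      nlinarith [abs_nonneg σ₁, abs_nonneg σ₂, abs_nonneg s.im]
    have h3 : ‖(w0 : ℂ) / s‖ ≤ w0 / σ₁ := by
      rw [norm_div, Complex.norm_real, Real.norm_of_nonneg hw.le]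
      exact div_le_div_of_nonneg_left hw.le h1 hs1
    have h4 : ‖P.Λ₀ s‖ ≤ |B| := (hB s hs).trans (le_abs_self B)
    have h5 : 0 ≤ w0 / σ₁ := by positivity
    simp only [e]
    calc ‖(s - 1) * P.Λ₀ s + w0 / s‖ ≤ ‖s - 1‖ * ‖P.Λ₀ s‖ + w0 / σ₁ := by
          refine (norm_add_le _ _).trans ?_
          rw [norm_mul]
          linarith
      _ ≤ (|σ₁| + |σ₂| + 1) * (1 + |s.im|) * |B| + w0 / σ₁ * (1 + |s.im|) := by
          refine add_le_add (mul_le_mul h2 h4 (norm_nonneg _) (by positivity)) ?_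
          nlinarith [abs_nonneg s.im]
      _ = _ := by ring

theorem anzb_ne (h : WD W w0) {s : ℂ} (hs : 0 < s.re) : mellin (fun y => (W y : ℂ)) s ≠ 0 := by
  obtain ⟨b, hb⟩ := h.mlow s.re s.re hs
  exact norm_pos_iff.1 ((Real.exp_pos _).trans_le (hb s le_rfl le_rfl))

omit [Countable ι] in
theorem anzb_real (hn : ND n) (x : ℝ) :
    ((x : ℂ) - 1) * ∑' k, (n k : ℂ) ^ (-(x : ℂ)) = (((x - 1) * ∑' k, n k ^ (-x) : ℝ) : ℂ) := by
  rw [Complex.ofReal_mul, Complex.ofReal_tsum, Complex.ofReal_sub, Complex.ofReal_one]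
  congr 1
  refine tsum_congr fun k => ?_
  rw [Complex.ofReal_cpow (zero_le_one.trans (hn.one_le k)), Complex.ofReal_neg]

/-- `Z = L / mellin W`, `WD.mlow` -/
theorem zeta_cont (h : WD W w0) (hn : ND n) (hp : Pois W w0 n (fun _ => 1) 1 1) : ∃ Z : ℂ → ℂ,
    DifferentiableOn ℂ Z {s | 0 < s.re} ∧ (∀ s : ℂ, 1 < s.re → Z s = (s - 1) * ∑' k, (n k : ℂ) ^ (-s)) ∧
    (Z 1).im = 0 ∧ ∀ σ₁ σ₂ : ℝ, 0 < σ₁ → ExpOn σ₁ σ₂ Z := by
  obtain ⟨L, hd, hL, hb⟩ := lam_cont h hn hp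
  have hZd : DifferentiableOn ℂ (fun s => L s * (mellin (fun y => (W y : ℂ)) s)⁻¹) {s | 0 < s.re} :=
    hd.mul (h.mdiff.inv fun s hs => anzb_ne h hs)
  have hZ : ∀ s : ℂ, 1 < s.re → L s * (mellin (fun y => (W y : ℂ)) s)⁻¹ =
      (s - 1) * ∑' k, (n k : ℂ) ^ (-s) := fun s hs => by
    have := anzb_ne h (zero_lt_one.trans hs)
    rw [hL s hs, mellin_tht h hn hs]
    field_simp
  refine ⟨_, hZd, hZ, ?_, fun σ₁ σ₂ h1 => ExpOn.mul ?_ ?_⟩
  · have hc : ContinuousAt (fun s => L s * (mellin (fun y => (W y : ℂ)) s)⁻¹) ((1 : ℝ) : ℂ) :=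
      (hZd.differentiableAt ((isOpen_lt continuous_const Complex.continuous_re).mem_nhds
        (by simp))).continuousAt
    have h2 : Filter.Tendsto (fun x : ℝ => (L x * (mellin (fun y => (W y : ℂ)) x)⁻¹).im)
        (nhdsWithin 1 (Set.Ioi 1)) (nhds (L 1 * (mellin (fun y => (W y : ℂ)) 1)⁻¹).im) :=
      ((Complex.continuous_im.tendsto _).comp
        (hc.tendsto.comp (Complex.continuous_ofReal.tendsto 1))).mono_left nhdsWithin_le_nhds
    refine tendsto_nhds_unique h2 (tendsto_const_nhds.congr' ?_)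
    filter_upwards [self_mem_nhdsWithin] with x hx
    rw [hZ x (by simpa using hx), anzb_real hn, Complex.ofReal_im]
  · obtain ⟨C, hC⟩ := hb σ₁ σ₂ h1
    exact ExpOn.of_poly (A := 1) (B := C) (by simpa using hC)
  · obtain ⟨b, hb⟩ := h.mlow σ₁ σ₂ h1
    refine ⟨Real.exp b, b, fun s hs => ?_⟩
    rw [norm_inv, ← Real.exp_add, show b + b * |s.im| = -(-(b * (1 + |s.im|))) by ring, Real.exp_neg]
    exact inv_anti₀ (Real.exp_pos _) (hb s hs.1 hs.2)

theorem anzb_gauss (h : WD W w0) {σ₁ σ₂ : ℝ} (h1 : 0 < σ₁) {G : ℂ → ℂ} (hG : ExpOn σ₁ σ₂ G) :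
    ∃ φ : ℝ → ℝ, Integrable φ ∧ ∀ s ∈ strip σ₁ σ₂, ‖Kv W w0 s * G s‖ ≤ φ s.im := by
  obtain ⟨C, hC⟩ := h.Kv_bd h1 σ₂
  obtain ⟨D, A, hD⟩ := hG
  refine ⟨fun y => C * D * Real.exp (-(1 / 2) * (y - 0) ^ 2 + A * |y - 0|),
    (linec_int (by norm_num) A 0).const_mul _, fun s hs => ?_⟩
  rw [norm_mul]
  refine (mul_le_mul (hC s hs) (hD s hs) (norm_nonneg _) ((norm_nonneg _).trans (hC s hs))).trans
    (le_of_eq ?_)
  simp only [sub_zero]
  rw [Real.exp_add, show -(1 / 2) * s.im ^ 2 = -(s.im ^ 2 / 2) by ring]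
  ring

theorem anzb_Kint (h : WD W w0) : VInt 1 (Kv W w0) := by
  obtain ⟨φ, hφ, hb⟩ := anzb_gauss h (σ₂ := 1) one_pos (G := fun _ => 1)
    (ExpOn.of_bdd (B := 1) fun _ _ => by simp)
  exact (VI_shift (T₀ := 0) le_rfl (h.Kv_diff.mono fun s hs => zero_lt_one.trans_le hs.1) hφ
    fun s hs _ => by simpa using hb s hs).1

theorem anzb_cpow {a Y : ℝ} (ha : 0 < a) (hY : 0 < Y) (s : ℂ) :
    ((a ^ 2 / Y : ℝ) : ℂ) ^ (-s) = (a : ℂ) ^ (-(2 * s)) * (Y : ℂ) ^ s := by
  have e : ∀ {x : ℝ}, 0 < x → ∀ z : ℂ, (x : ℂ) ^ z = Complex.exp ((Real.log x : ℝ) * z) :=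
    fun hx z => by
      rw [Complex.cpow_def_of_ne_zero (Complex.ofReal_ne_zero.2 hx.ne'), Complex.ofReal_log hx.le]
  rw [e ha, e hY, e (by positivity), ← Complex.exp_add, Real.log_div (by positivity) hY.ne',
    Real.log_pow]
  congr 1
  push_cast
  ring

/-- `V_rep` at `σ = 1`, `VI_tsum` -/
theorem Th_rep (h : WD W w0) (hn : ND n) {Y : ℝ} (hY : 0 < Y) :
    ((∑' k, Vw W w0 (n k ^ 2 / Y) : ℝ) : ℂ) =
      VI 1 fun s => Kv W w0 s * (∑' k, (n k : ℂ) ^ (-(2 * s))) * (Y : ℂ) ^ s := by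
  have hn0 : ∀ k, 0 < n k := fun k => zero_lt_one.trans_le (hn.one_le k)
  have hy : ∀ k, 0 < n k ^ 2 / Y := fun k => div_pos (pow_pos (hn0 k) 2) hY
  have hnorm : ∀ k (y : ℝ), ‖((n k ^ 2 / Y : ℝ) : ℂ) ^ (-(((1 : ℝ) : ℂ) + y * Complex.I))‖ =
      n k ^ (-2 : ℝ) * Y := fun k y => by
    rw [Complex.norm_cpow_eq_rpow_re_of_pos (hy k), Real.rpow_neg (hn0 k).le, Real.rpow_two]
    simp [Real.rpow_neg_one, div_eq_inv_mul]
  have hF : ∀ k, VInt 1 fun s => Kv W w0 s * ((n k ^ 2 / Y : ℝ) : ℂ) ^ (-s) := fun k =>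
    Integrable.mul_bdd (c := n k ^ (-2 : ℝ) * Y) (anzb_Kint h)
      (Continuous.const_cpow (by fun_prop)
        (Or.inl (Complex.ofReal_ne_zero.2 (hy k).ne'))).aestronglyMeasurable
      (Filter.Eventually.of_forall fun y => (hnorm k y).le)
  have hs : Summable fun k => ∫ y : ℝ, ‖Kv W w0 ((1 : ℝ) + y * Complex.I) *
      ((n k ^ 2 / Y : ℝ) : ℂ) ^ (-(((1 : ℝ) : ℂ) + y * Complex.I))‖ := by
    simp only [norm_mul, hnorm, integral_mul_const]
    exact ((hn.summ 2 one_lt_two).mul_right Y).mul_left _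
  have h2 := (VI_tsum hF hs).2.tsum_eq
  rw [Complex.ofReal_tsum, tsum_congr fun k => h.V_rep one_pos (hy k), h2]
  refine VI_congr fun s _ => ?_
  rw [mul_assoc, ← tsum_mul_right, ← tsum_mul_left]
  exact tsum_congr fun k => by rw [anzb_cpow (hn0 k) hY]

theorem anzb_Kreal (W : ℝ → ℝ) (w0 : ℝ) : (Kv W w0 (1 / 2)).im = 0 := by
  have e : mellin (fun y => (W y : ℂ)) (1 / 2) =
      ((∫ t in Set.Ioi (0 : ℝ), t ^ (-(1 / 2) : ℝ) * W t : ℝ) : ℂ) := by
    rw [mellin, ← integral_complex_ofReal]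
    refine setIntegral_congr_fun measurableSet_Ioi fun t ht => ?_
    simp only [smul_eq_mul]
    rw [Complex.ofReal_mul, Complex.ofReal_cpow (le_of_lt ht)]
    norm_num
  rw [Kv, e, sub_self, zero_pow two_ne_zero, zero_div, Complex.exp_zero, mul_one, ← Complex.ofReal_mul,
    Complex.ofReal_im]

/-- `VI_shift_pole` on the strip `[σ, 1]` with `G s = Kv s * Z (2 s) / 2 * Y ^ s`, `ρ = 1/2`;
`kp = re (Kv (1/2) * Z 1 / 2)` (the number is real: `mellin W (1/2)` is an integral of a real function),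
`ρ t = Kv s * Z (2 s) / 2 / (s - 1/2) / (2π)`, `s = σ + i t` (integrable: `VI_shift_pole` at `Y = 1`) -/
theorem mel_main (h : WD W w0) (hn : ND n) (hp : Pois W w0 n (fun _ => 1) 1 1) : ∃ kp : ℝ,
    ∀ σ : ℝ, 0 < σ → σ < 1 / 2 → ∃ ρ : ℝ → ℂ, Integrable ρ ∧ ∀ Y : ℝ, 0 < Y →
      (((∑' k, Vw W w0 (n k ^ 2 / Y)) - kp * Real.sqrt Y : ℝ) : ℂ) =
        ∫ t : ℝ, (Y : ℂ) ^ ((σ : ℂ) + t * Complex.I) * ρ t := by
  obtain ⟨Z, hd, hZ, hZ1, hb⟩ := zeta_cont h hn hp
  have hk : (((Kv W w0 (1 / 2) * (Z 1 / 2)).re : ℝ) : ℂ) = Kv W w0 (1 / 2) * (Z 1 / 2) :=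
    Complex.ext rfl (by simp [Complex.mul_im, hZ1, -one_div, anzb_Kreal])
  refine ⟨(Kv W w0 (1 / 2) * (Z 1 / 2)).re, fun σ h0 h1 => ?_⟩
  have key : ∀ Y : ℝ, 0 < Y →
      VInt σ (fun s => Kv W w0 s * (Z (2 * s) / 2 * (Y : ℂ) ^ s) / (s - 1 / 2)) ∧
      VI 1 (fun s => Kv W w0 s * (Z (2 * s) / 2 * (Y : ℂ) ^ s) / (s - 1 / 2)) =
        VI σ (fun s => Kv W w0 s * (Z (2 * s) / 2 * (Y : ℂ) ^ s) / (s - 1 / 2)) +
          Kv W w0 (1 / 2) * (Z (2 * (1 / 2)) / 2 * (Y : ℂ) ^ (1 / 2 : ℂ)) := fun Y hY => by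
    have e1 : ExpOn σ 1 fun s => Z (2 * s) / 2 := by
      obtain ⟨C, A, hC⟩ := hb (2 * σ) 2 (by linarith)
      refine ⟨C / 2, 2 * A, fun s hs => ?_⟩
      have := hC (2 * s) ⟨by simpa using hs.1, by simpa using hs.2⟩
      rw [norm_div, show A * |(2 * s).im| = 2 * A * |s.im| by simp [abs_mul]; ring] at *
      simp only [Complex.norm_ofNat]
      linarith
    have e2 : ExpOn σ 1 fun s => (Y : ℂ) ^ s := by simpa using expOn_cpow hY σ 1 1 0
    obtain ⟨φ, hφ, hle⟩ := anzb_gauss h h0 (e1.mul e2)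
    have hD : DifferentiableOn ℂ (fun s => Kv W w0 s * (Z (2 * s) / 2 * (Y : ℂ) ^ s)) (strip σ 1) :=
      (h.Kv_diff.mono fun s hs => h0.trans_le hs.1).mul
        (((hd.comp (by fun_prop) fun s hs => by
          have := h0.trans_le hs.1
          simpa using this).div_const 2).mul
        (differentiable_id.const_cpow (Or.inl (Complex.ofReal_ne_zero.2 hY.ne'))).differentiableOn)
    have := VI_shift_pole (T₀ := 0) (ρ := 1 / 2) (by simpa using h1) (by norm_num) hD hφ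
      fun s hs _ => hle s hs
    exact ⟨this.1, this.2.2⟩
  refine ⟨fun t => ((1 / (2 * Real.pi) : ℝ) : ℂ) * (Kv W w0 (σ + t * Complex.I) *
    (Z (2 * (σ + t * Complex.I)) / 2) / (σ + t * Complex.I - 1 / 2)), ?_, fun Y hY => ?_⟩
  · have := (key 1 one_pos).1
    simp only [VInt, Complex.ofReal_one, Complex.one_cpow, mul_one] at this
    exact this.const_mul _
  · have e1 : (VI 1 fun s => Kv W w0 s * (∑' k, (n k : ℂ) ^ (-(2 * s))) * (Y : ℂ) ^ s) =
        VI 1 fun s => Kv W w0 s * (Z (2 * s) / 2 * (Y : ℂ) ^ s) / (s - 1 / 2) :=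
      VI_congr fun s hs => by
        have hne : 2 * s - 1 ≠ 0 := fun e => by
          have := congrArg Complex.re e
          simp [hs] at this
          norm_num at this
        rw [hZ (2 * s) (by simp [hs]), show s - 1 / 2 = (2 * s - 1) / 2 by ring]
        field_simp
    have e2 : (Y : ℂ) ^ (1 / 2 : ℂ) = (Real.sqrt Y : ℂ) := by
      rw [Real.sqrt_eq_rpow, Complex.ofReal_cpow hY.le]
      norm_num
    rw [Complex.ofReal_sub, Complex.ofReal_mul, hk, Th_rep h hn hY, e1, (key Y hY).2, e2, VI,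
      ← integral_const_mul, show (2 : ℂ) * (1 / 2) = 1 by norm_num, mul_assoc (Kv W w0 (1 / 2)),
      add_sub_cancel_right]
    exact integral_congr_ae (Filter.Eventually.of_forall fun t => by simp only; ring)

end Crest.Agent.R27.E
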