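import Crest.Agent.R27.E.Defs

/-!
Row 27, block E: the facts about `O` used in this block.
-/

set_option autoImplicit false

namespace Crest.Agent.R27.E

open scoped Classical ComplexConjugate

variable [ED]

theorem nm_mul (a b : O) : nm (a * b) = nm a * nm b := ED.nm_mul a b

theorem nm_one : nm (1 : O) = 1 := ED.nm_one

theorem nm_zero : nm (0 : O) = 0 := ED.nm_zero

theorem one_le_nm {a : O} (ha : a ≠ 0) : 1 ≤ nm a := ED.one_le_nm a ha

theorem nm_nonneg (a : O) : 0 ≤ nm a := by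
  by_cases h : a = 0
  · rw [h, nm_zero]
  · exact zero_le_one.trans (one_le_nm h)

theorem nm_pow (a : O) (n : ℕ) : nm (a ^ n) = nm a ^ n := by
  induction n with
  | zero => simp [nm_one]
  | succ n ih => rw [pow_succ, nm_mul, ih, pow_succ]

theorem nm_unit {u : O} (hu : IsUnit u) : nm u = 1 := by
  rw [ED.unit_eq u hu, nm_one]

theorem finite_nm (X : ℝ) : {n : O | nm n ≤ X}.Finite := ED.finite_nm X

theorem card_le : ∃ C : ℝ, 0 < C ∧ ∀ (X : ℝ) (B : Finset O), 0 ≤ X →
    (∀ b ∈ B, b ≠ 0 ∧ nm b ≤ X) → (B.card : ℝ) ≤ C * X := ED.card_le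

theorem assoc_eq {a b : O} (h : Associated a b) : a = b := by
  obtain ⟨u, rfl⟩ := h
  rw [ED.unit_eq u u.isUnit, mul_one]

theorem qd_mul_left (u v n : O) : qd (u * v) n = qd u n * qd v n := ED.qd_mul_left u v n

theorem qd_mul_right (u m n : O) : qd u (m * n) = qd u m * qd u n := ED.qd_mul_right u m n

theorem qd_one_right (u : O) : qd u 1 = 1 := ED.qd_one_right u

theorem qd_prime {p : O} (hp : IsP p) (u : O) :
    (p ∣ u ∧ qd u p = 0) ∨ (¬ p ∣ u ∧ (qd u p = 1 ∨ qd u p = -1)) := ED.qd_prime p u hp.1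

theorem gw_nonneg {K : ℝ} (hK : 0 < K) (k : O) : 0 ≤ gw K k := by
  unfold gw
  split_ifs with h
  · exact zero_le_one
  · exact ED.V_nonneg _ (div_pos (one_pos.trans_le (one_le_nm h)) hK)

theorem gw_eq (K : ℝ) {k : O} (hk : k ≠ 0) : gw K k = V (nm k / K) := if_neg hk

end Crest.Agent.R27.E
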