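import Crest.Agent.R27.E.Ari

/-!
Row 27, block E: summability and tail of the weight.  Prefix for helper lemmas: `th_`.
-/

set_option autoImplicit false

namespace Crest.Agent.R27.E

open scoped Classical ComplexConjugate

variable [ED]

/-- dyadic decomposition, `card_le` -/
theorem th_dyadic : ∃ C : ℝ, 0 < C ∧ ∀ (K σ : ℝ) (B : Finset O), 0 < K → 2 ≤ σ → (∀ b ∈ B, K < nm b) →
    ∑ b ∈ B, (nm b / K) ^ (-σ) ≤ C * K := by
  obtain ⟨C, hC, h⟩ := card_le
  have H : ∀ (n : ℕ) (K : ℝ) (B : Finset O), 0 < K → (∀ b ∈ B, K < nm b ∧ nm b ≤ K * 2 ^ n) →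
      ∑ b ∈ B, (K / nm b) ^ 2 ≤ 4 * C * K := fun n => by
    induction n with
    | zero =>
      intro K B hK hB
      rw [Finset.sum_eq_zero fun b hb => absurd ((hB b hb).1.trans_le (hB b hb).2) (by simp)]
      positivity
    | succ n ih =>
      intro K B hK hB
      rw [← Finset.sum_filter_add_sum_filter_not B fun b => 2 * K < nm b]
      have h1 := ih (2 * K) (B.filter fun b => 2 * K < nm b) (by positivity) fun b hb =>
        ⟨(Finset.mem_filter.1 hb).2, (hB b (Finset.mem_filter.1 hb).1).2.trans_eq (by ring)⟩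
      have h2 := h (2 * K) (B.filter fun b => ¬ 2 * K < nm b) (by positivity) fun b hb =>
        ⟨fun e => by
          have := (hB b (Finset.mem_filter.1 hb).1).1
          rw [e, nm_zero] at this
          linarith, not_lt.1 (Finset.mem_filter.1 hb).2⟩
      have h3 := Finset.sum_le_card_nsmul (B.filter fun b => ¬ 2 * K < nm b) (fun b => (K / nm b) ^ 2) 1
        fun b hb => by
          have := (hB b (Finset.mem_filter.1 hb).1).1
          exact pow_le_one₀ (div_nonneg hK.le (nm_nonneg b)) ((div_le_one (hK.trans this)).2 this.le)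
      have h4 : ∑ b ∈ B with 2 * K < nm b, (2 * K / nm b) ^ 2 = 4 * ∑ b ∈ B with 2 * K < nm b, (K / nm b) ^ 2 := by
        rw [Finset.mul_sum]
        exact Finset.sum_congr rfl fun b _ => by ring
      rw [nsmul_one] at h3
      linarith
  refine ⟨4 * C, by positivity, fun K σ B hK hσ hB => ?_⟩
  obtain ⟨X, hX⟩ := (B.image nm).bddAbove
  obtain ⟨n, hn⟩ := pow_unbounded_of_one_lt (X / K) (one_lt_two (α := ℝ))
  refine le_trans (Finset.sum_le_sum fun b hb => ?_) (H n K B hK fun b hb => ⟨hB b hb,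
    (hX (Finset.mem_image_of_mem nm hb)).trans ((div_le_iff₀' hK).1 hn.le)⟩)
  refine (Real.rpow_le_rpow_of_exponent_le ((one_le_div hK).2 (hB b hb).le) (neg_le_neg hσ)).trans_eq ?_
  rw [Real.rpow_neg (div_nonneg (nm_nonneg b) hK.le), Real.rpow_two, ← inv_pow, inv_div]

theorem th_summ {K σ : ℝ} (hK : 0 < K) (hσ : 2 ≤ σ) : Summable fun k : O => (nm k / K) ^ (-σ) := by
  obtain ⟨C, -, h⟩ := th_dyadic
  have : Summable fun k : O => if K < nm k then (nm k / K) ^ (-σ) else 0 :=
    summable_of_sum_le (c := C * K) (fun k => by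
      dsimp only
      split_ifs
      exacts [Real.rpow_nonneg (div_nonneg (nm_nonneg k) hK.le) _, le_rfl]) fun A => by
      rw [← Finset.sum_filter]
      exact h K σ _ hK hσ fun b hb => (Finset.mem_filter.1 hb).2
  refine this.congr_cofinite (Filter.eventually_cofinite.2 ((finite_nm K).subset fun k hk => ?_))
  exact not_lt.1 fun e => hk (if_pos e)

theorem summable_gw {K : ℝ} (hK : 0 < K) : Summable fun k : O => gw K k := by
  obtain ⟨C, h⟩ := ED.V_le 2 two_pos
  refine ((th_summ hK le_rfl).mul_left C).of_norm_bounded_eventually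
    ((Filter.eventually_cofinite_ne 0).mono fun k hk => ?_)
  rw [Real.norm_of_nonneg (gw_nonneg hK k), gw_eq K hk]
  exact h _ (div_pos (one_pos.trans_le (one_le_nm hk)) hK)

/-- a bounded function times the weight -/
theorem summable_gw_mul {K : ℝ} (hK : 0 < K) {f : O → ℂ} {A : ℝ} (hf : ∀ k, ‖f k‖ ≤ A) :
    Summable fun k : O => (gw K k : ℂ) * f k := by
  refine ((summable_gw hK).mul_right A).of_norm_bounded fun k => ?_
  rw [norm_mul, Complex.norm_real, Real.norm_of_nonneg (gw_nonneg hK k)]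
  exact mul_le_mul_of_nonneg_left (hf k) (gw_nonneg hK k)

theorem summable_sq {Y : ℝ} (hY : 0 < Y) : Summable fun v : O => if v = 0 then 0 else V (nm v ^ 2 / Y) := by
  obtain ⟨C, h⟩ := ED.V_le 1 one_pos
  refine ((th_summ one_pos le_rfl).mul_left (C * Y)).of_norm_bounded_eventually
    ((Filter.eventually_cofinite_ne 0).mono fun k hk => ?_)
  have h0 := one_pos.trans_le (one_le_nm hk)
  rw [if_neg hk, Real.norm_of_nonneg (ED.V_nonneg _ (by positivity))]
  refine (h _ (by positivity)).trans_eq ?_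
  rw [Real.rpow_neg_one, div_one, Real.rpow_neg h0.le, Real.rpow_two, inv_div, div_eq_mul_inv, mul_assoc]

/-- the tail -/
theorem tail_gw {σ : ℝ} (hσ : 2 ≤ σ) : ∃ C : ℝ, 0 < C ∧ ∀ H K : ℝ, 0 < H → 0 < K →
    ∑' h : O, (if K < nm h then gw H h else 0) ≤ C * K * (H / K) ^ σ := by
  obtain ⟨C, hC, h⟩ := th_dyadic
  obtain ⟨D, hD⟩ := ED.V_le σ (by linarith)
  refine ⟨max D 1 * C, by positivity, fun H K hH hK => Real.tsum_le_of_sum_le (fun k => ?_) fun A => ?_⟩
  · dsimp only
    split_ifs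
    exacts [gw_nonneg hH k, le_rfl]
  rw [← Finset.sum_filter]
  have h1 := mul_le_mul_of_nonneg_left (h K σ (A.filter fun k => K < nm k) hK hσ fun b hb => (Finset.mem_filter.1 hb).2)
    (show 0 ≤ max D 1 * (H / K) ^ σ by positivity)
  refine le_trans ?_ (h1.trans_eq (by ring))
  rw [Finset.mul_sum]
  refine Finset.sum_le_sum fun k hk => ?_
  have h0 := hK.trans (Finset.mem_filter.1 hk).2
  rw [gw_eq H fun e => by simp [e, nm_zero] at h0]
  refine (hD _ (by positivity)).trans ((mul_le_mul_of_nonneg_right (le_max_left D 1) (by positivity)).trans_eq ?_)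
  rw [show nm k / H = nm k / K / (H / K) by field_simp, Real.div_rpow (by positivity) (by positivity),
    Real.rpow_neg (x := H / K) (by positivity), div_inv_eq_mul]
  ring

theorem mellin_Rm {σ : ℝ} (h0 : 0 < σ) (h1 : σ < 1 / 2) : ∃ ρ : ℝ → ℂ, MeasureTheory.Integrable ρ ∧
    ∀ Y : ℝ, 0 < Y → (Rm Y : ℂ) = ∫ t : ℝ, (Y : ℂ) ^ ((σ : ℂ) + t * Complex.I) * ρ t :=
  ED.mel σ h0 h1

end Crest.Agent.R27.E
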