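import Crest.Agent.R27.E.Ari

/-!
Row 27, block E: sets of primes.  Elementary; use only `E/Ari.lean` and Mathlib.
-/

set_option autoImplicit false

namespace Crest.Agent.R27.E

open scoped Classical ComplexConjugate

variable [ED]

theorem PSet.mono {S T : Finset O} (h : PSet T) (hST : S ⊆ T) : PSet S := fun p hp => h p (hST hp)

theorem PSet.union {S T : Finset O} (hS : PSet S) (hT : PSet T) : PSet (S ∪ T) := by
  intro p hp
  rcases Finset.mem_union.1 hp with h | h
  exacts [hS p h, hT p h]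

theorem IsP.two_le {p : O} (hp : IsP p) : 2 ≤ nm p := ED.two_le p hp.1

theorem nm_pr (S : Finset O) : nm (pr S) = NS S := by
  unfold pr NS
  induction S using Finset.induction_on with
  | empty => simp [nm_one]
  | insert p S hp ih => rw [Finset.prod_insert hp, Finset.prod_insert hp, nm_mul, ih]

theorem PSet.one_le_NS {S : Finset O} (h : PSet S) : 1 ≤ NS S := by
  exact Finset.one_le_prod fun p hp => one_le_nm (h p hp).1.ne_zero

theorem NS_union {S T : Finset O} (h : Disjoint S T) : NS (S ∪ T) = NS S * NS T :=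
  Finset.prod_union h

theorem PSet.NS_mono {S T : Finset O} (h : PSet T) (hST : S ⊆ T) : NS S ≤ NS T := by
  rw [← Finset.union_sdiff_of_subset hST, NS_union Finset.disjoint_sdiff]
  exact le_mul_of_one_le_right (zero_le_one.trans (h.mono hST).one_le_NS)
    (h.mono Finset.sdiff_subset).one_le_NS

theorem ch_union {S T : Finset O} (h : Disjoint S T) (k : O) : ch (S ∪ T) k = ch S k * ch T k :=
  Finset.prod_union h

theorem ch_mul (S : Finset O) (k l : O) : ch S (k * l) = ch S k * ch S l := by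
  simp only [ch, qd_mul_left, Finset.prod_mul_distrib]

theorem qd_pr (S : Finset O) (k : O) : qd k (pr S) = ch S k := by
  unfold pr ch
  induction S using Finset.induction_on with
  | empty => simp [qd_one_right]
  | insert p S hp ih => rw [Finset.prod_insert hp, Finset.prod_insert hp, qd_mul_right, ih]

theorem PSet.ch_sq {S : Finset O} (h : PSet S) (v : O) :
    ch S v * ch S v = if cop S v then 1 else 0 := by
  rw [ch, ← Finset.prod_mul_distrib]
  split_ifs with hc
  · refine Finset.prod_eq_one fun p hp => ?_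
    rcases qd_prime (h p hp) v with h1 | ⟨-, h1 | h1⟩
    · exact absurd h1.1 (hc p hp)
    · rw [h1, one_mul]
    · rw [h1, neg_mul_neg, one_mul]
  · simp only [cop, not_forall, not_not] at hc
    obtain ⟨p, hp, hd⟩ := hc
    refine Finset.prod_eq_zero hp ?_
    rcases qd_prime (h p hp) v with h1 | h1
    · rw [h1.2, zero_mul]
    · exact absurd hd h1.1

theorem PSet.norm_ch_le {S : Finset O} (h : PSet S) (k : O) : ‖ch S k‖ ≤ 1 := by
  rw [ch, norm_prod]
  refine Finset.prod_le_one (fun _ _ => norm_nonneg _) fun p hp => ?_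
  rcases qd_prime (h p hp) k with ⟨-, h1⟩ | ⟨-, h1 | h1⟩ <;> simp [h1]

theorem PSet.conj_ch {S : Finset O} (h : PSet S) (k : O) : conj (ch S k) = ch S k := by
  rw [ch, map_prod]
  refine Finset.prod_congr rfl fun p hp => ?_
  rcases qd_prime (h p hp) k with ⟨-, h1⟩ | ⟨-, h1 | h1⟩ <;> simp [h1]

theorem PSet.ch_zero {S : Finset O} (h : PSet S) : ch S 0 = if S = ∅ then 1 else 0 := by
  split_ifs with hS
  · rw [hS, ch, Finset.prod_empty]
  · obtain ⟨p, hp⟩ := Finset.nonempty_iff_ne_empty.2 hS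
    refine Finset.prod_eq_zero hp ?_
    rcases qd_prime (h p hp) 0 with h1 | h1
    · exact h1.2
    · exact absurd (dvd_zero p) h1.1

/-- the product of two columns -/
theorem ch_mul_ch {S T : Finset O} (hS : PSet S) (hT : PSet T) (k : O) :
    ch S k * ch T k = (if cop (S ∩ T) k then 1 else 0) * ch (S \ T ∪ T \ S) k := by
  have e1 : ch S k = ch (S \ T) k * ch (S ∩ T) k := by
    rw [← ch_union (Finset.disjoint_sdiff_inter S T), Finset.sdiff_union_inter]
  have e2 : ch T k = ch (T \ S) k * ch (S ∩ T) k := by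
    rw [Finset.inter_comm, ← ch_union (Finset.disjoint_sdiff_inter T S), Finset.sdiff_union_inter]
  rw [e1, e2, ch_union disjoint_sdiff_sdiff, ← (hS.mono Finset.inter_subset_left).ch_sq]
  ring

theorem IsP.coprime {p q : O} (hp : IsP p) (hq : IsP q) (h : p ≠ q) : IsRelPrime p q :=
  hp.1.irreducible.isRelPrime_iff_not_dvd.2 fun hd => h (assoc_eq (hp.1.associated_of_dvd hq.1 hd))

theorem PSet.pr_ne_zero {S : Finset O} (h : PSet S) : pr S ≠ 0 := by
  exact Finset.prod_ne_zero_iff.2 fun p hp => (h p hp).1.ne_zero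

theorem PSet.pr_dvd_iff {S : Finset O} (h : PSet S) (k : O) : pr S ∣ k ↔ dv S k := by
  refine ⟨fun hd p hp => (Finset.dvd_prod_of_mem _ hp).trans hd, fun hd => ?_⟩
  exact Finset.prod_dvd_of_isRelPrime (fun p hp q hq hpq => (h p hp).coprime (h q hq) hpq) hd

theorem PSet.dvd_pr_iff {S : Finset O} (h : PSet S) {p : O} (hp : IsP p) : p ∣ pr S ↔ p ∈ S := by
  refine ⟨fun hd => ?_, Finset.dvd_prod_of_mem _⟩
  obtain ⟨q, hq, hpq⟩ := (hp.1.dvd_finsetProd_iff _).1 hd
  rwa [assoc_eq (hp.1.associated_of_dvd (h q hq).1 hpq)]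

theorem PSet.sq {S : Finset O} (h : PSet S) : Sq (NS S) (pr S) := by
  refine ⟨trivial, ?_, trivial, (nm_pr S).le⟩
  refine Finset.squarefree_prod_of_pairwise_isCoprime ?_ fun p hp => (h p hp).1.squarefree
  intro p hp q hq hne
  exact (h p hp).coprime (h q hq) hne

theorem pr_inj {S T : Finset O} (hS : PSet S) (hT : PSet T) (h : pr S = pr T) : S = T := by
  ext p
  constructor
  · intro hp
    exact (hT.dvd_pr_iff (hS p hp)).1 (h ▸ Finset.dvd_prod_of_mem _ hp)
  · intro hp
    exact (hS.dvd_pr_iff (hT p hp)).1 (h ▸ Finset.dvd_prod_of_mem _ hp)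

theorem clb_exists (n : O) : Squarefree n → ∃ S : Finset O, PSet S ∧ pr S = n := by
  induction n using UniqueFactorizationMonoid.induction_on_prime with
  | h₁ => intro h; exact absurd rfl h.ne_zero
  | h₂ u hu =>
    intro _
    exact ⟨∅, fun p hp => absurd hp (Finset.notMem_empty p), (ED.unit_eq u hu).symm⟩
  | h₃ a p ha hp ih =>
    intro hs
    obtain ⟨S, hS, hSa⟩ := ih (hs.squarefree_of_dvd (dvd_mul_left a p))
    have hnot : p ∉ S := fun hmem =>
      hp.not_isUnit (hs _ (mul_dvd_mul_left _ (hSa ▸ Finset.dvd_prod_of_mem _ hmem)))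
    refine ⟨insert p S, ?_, ?_⟩
    · intro q hq
      rcases Finset.mem_insert.1 hq with rfl | hq
      exacts [⟨hp, trivial⟩, hS q hq]
    · unfold pr at hSa ⊢
      rw [Finset.prod_insert hnot, hSa]

theorem exists_pset {X : ℝ} {n : O} (h : Sq X n) : ∃ S : Finset O, PSet S ∧ pr S = n :=
  clb_exists n h.2.1

theorem card_cols : ∃ C : ℝ, 0 < C ∧ ∀ (N : ℝ) (𝒞 : Finset (Finset O)), 0 ≤ N → Cols N 𝒞 →
    (𝒞.card : ℝ) ≤ C * N := by
  obtain ⟨C, hC, h⟩ := card_le
  refine ⟨C, hC, fun N 𝒞 hN h𝒞 => ?_⟩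
  rw [← Finset.card_image_of_injOn (f := pr)
    fun S hS T hT hST => pr_inj (h𝒞 S hS).1 (h𝒞 T hT).1 hST]
  refine h N _ hN fun b hb => ?_
  obtain ⟨S, hS, rfl⟩ := Finset.mem_image.1 hb
  exact ⟨(h𝒞 S hS).1.pr_ne_zero, (nm_pr S).le.trans (h𝒞 S hS).2⟩

/-- divisor bound: primes with `nm p ^ ε ≥ 2` contribute `2 ≤ nm p ^ ε`; the others lie in the fixed
finite set `nm p ≤ 2 ^ (1/ε)` -/
theorem two_pow_card (ε : ℝ) (hε : 0 < ε) : ∃ C : ℝ, 1 ≤ C ∧ ∀ S : Finset O, PSet S →
    (2 : ℝ) ^ S.card ≤ C * NS S ^ ε := by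
  set T := (finite_nm (2 ^ (1 / ε))).toFinset with hT
  refine ⟨2 ^ T.card, one_le_pow₀ (by norm_num), fun S hS => ?_⟩
  have h1 : ∀ p ∈ S, (2 : ℝ) ≤ (if p ∈ T then 2 else 1) * nm p ^ ε := by
    intro p hp
    have h2 := (hS p hp).two_le
    split_ifs with hpT
    · have : 1 ≤ nm p ^ ε := Real.one_le_rpow (by linarith) hε.le
      linarith
    · have h3 : (2 : ℝ) ^ (1 / ε) ≤ nm p := by
        by_contra h4
        exact hpT ((Set.Finite.mem_toFinset _).2 (not_le.1 h4).le)
      have h5 := Real.rpow_le_rpow (by positivity) h3 hε.le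
      rw [← Real.rpow_mul (by norm_num), one_div_mul_cancel hε.ne', Real.rpow_one] at h5
      linarith
  calc (2 : ℝ) ^ S.card = ∏ _p ∈ S, (2 : ℝ) := (Finset.prod_const _).symm
    _ ≤ ∏ p ∈ S, (if p ∈ T then 2 else 1) * nm p ^ ε :=
      Finset.prod_le_prod (fun _ _ => by norm_num) h1
    _ = 2 ^ (S.filter (· ∈ T)).card * NS S ^ ε := by
      rw [Finset.prod_mul_distrib, Finset.prod_ite, Finset.prod_const, Finset.prod_const_one,
        mul_one, NS, Real.finsetProd_rpow _ _ fun p _ => nm_nonneg p]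
    _ ≤ 2 ^ T.card * NS S ^ ε := by
      refine mul_le_mul_of_nonneg_right (pow_le_pow_right₀ (by norm_num)
        (Finset.card_le_card fun p hp => (Finset.mem_filter.1 hp).2)) ?_
      exact Real.rpow_nonneg (by linarith [hS.one_le_NS]) _

theorem clb_expand (S : Finset O) (f : O → ℝ) :
    ∏ p ∈ S, (1 - f p) = ∑ d ∈ S.powerset, (-1) ^ d.card * ∏ p ∈ d, f p := by
  rw [Finset.prod_sub]
  exact Finset.sum_congr rfl fun d _ => by rw [Finset.prod_const_one, mul_one]

theorem clb_cop (S : Finset O) (k : O) :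
    (if cop S k then (1 : ℝ) else 0) = ∏ p ∈ S, if ¬ p ∣ k then 1 else 0 := by
  rw [Finset.prod_boole]
  exact if_congr Iff.rfl rfl rfl

/-- Möbius expansion of the mask (`Finset.prod_sub` / `prod_one_add`) -/
theorem cop_expand (S : Finset O) (k : O) :
    (if cop S k then (1 : ℝ) else 0) = ∑ d ∈ S.powerset, (-1) ^ d.card * (if dv d k then 1 else 0) := by
  have h1 : ∀ d : Finset O, (if dv d k then (1 : ℝ) else 0) = ∏ p ∈ d, if p ∣ k then 1 else 0 := by
    intro d
    rw [Finset.prod_boole]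
    exact if_congr Iff.rfl rfl rfl
  simp only [h1]
  rw [← clb_expand, clb_cop]
  refine Finset.prod_congr rfl fun p _ => ?_
  by_cases h : p ∣ k <;> simp [h]

theorem Ph_expand (S : Finset O) : Ph S = ∑ d ∈ S.powerset, (-1) ^ d.card / NS d := by
  rw [Ph, clb_expand]
  refine Finset.sum_congr rfl fun d _ => ?_
  rw [Finset.prod_div_distrib, Finset.prod_const_one, NS, mul_one_div]

theorem PSet.Ph_mem {S : Finset O} (h : PSet S) : 0 ≤ Ph S ∧ Ph S ≤ 1 := by
  have h1 : ∀ p ∈ S, 0 ≤ 1 - 1 / nm p ∧ 1 - 1 / nm p ≤ 1 := by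
    intro p hp
    have h2 := (h p hp).two_le
    have h3 : 0 < 1 / nm p := by positivity
    have h4 : 1 / nm p ≤ 1 := by rw [div_le_one (by linarith)]; linarith
    constructor <;> linarith
  exact ⟨Finset.prod_nonneg fun p hp => (h1 p hp).1,
    Finset.prod_le_one (fun p hp => (h1 p hp).1) fun p hp => (h1 p hp).2⟩

/-- the main terms of the two sides agree: factor `1 - (if p ∣ b then 1 else 1 / nm p)` at `p` -/
theorem main_cancel {Δ : Finset O} (h : PSet Δ) (b : O) :
    ∑ e ∈ Δ.powerset, (-1) ^ e.card * (NS (e.filter (· ∣ b)) / NS e) =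
      (if cop Δ b then 1 else 0) * Ph Δ := by
  have h1 : ∀ e : Finset O, NS (e.filter (· ∣ b)) / NS e =
      ∏ p ∈ e, (if p ∣ b then nm p else 1) / nm p := by
    intro e
    rw [Finset.prod_div_distrib, NS, NS, Finset.prod_filter]
  simp only [h1]
  rw [← clb_expand, clb_cop, Ph, ← Finset.prod_mul_distrib]
  refine Finset.prod_congr rfl fun p hp => ?_
  have h2 : nm p ≠ 0 := by linarith [(h p hp).two_le]
  by_cases hb : p ∣ b <;> simp [hb, h2]

/-- multiples of `pr e` (`Function.Injective.tsum_eq` with `k' ↦ pr e * k'`) -/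
theorem tsum_dv {e : Finset O} (h : PSet e) (F : O → ℂ) :
    ∑' k : O, (if dv e k then F k else 0) = ∑' k : O, F (pr e * k) := by
  have hinj : Function.Injective fun k : O => pr e * k := mul_right_injective₀ h.pr_ne_zero
  rw [← hinj.tsum_eq]
  · refine tsum_congr fun k => if_pos ?_
    exact (h.pr_dvd_iff _).1 (dvd_mul_right _ _)
  · intro k hk
    have : dv e k := by
      by_contra hn
      exact hk (if_neg hn)
    obtain ⟨c, hc⟩ := (h.pr_dvd_iff k).2 this
    exact ⟨c, hc.symm⟩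

theorem exists_allSq (K : ℝ) : ∃ B : Finset O, AllSq K B := by
  refine ⟨(finite_nm K).toFinset.filter Squarefree, fun b => ?_⟩
  rw [Finset.mem_filter, Set.Finite.mem_toFinset]
  exact and_comm

end Crest.Agent.R27.E
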