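import Crest.Agent.R27.E.Bil

/-!
Row 27, block E: the primal and the dual remainder.
-/

set_option autoImplicit false

namespace Crest.Agent.R27.E

open scoped Classical ComplexConjugate

variable [ED]

theorem RowW.mono {N Bd Bd' : ℝ} {B B' : Finset O} {w w' : O → ℝ} {t : ℝ} (h : RowW N B w Bd)
    (hB : B' ⊆ B) (hw : ∀ b ∈ B, 0 ≤ w b) (ht : 0 ≤ t) (hw' : ∀ b ∈ B', w' b ≤ t * w b)
    (hBd : t * Bd ≤ Bd') : RowW N B' w' Bd' := by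
  intro C a hC
  calc ∑ b ∈ B', w' b * ‖As C a b‖ ^ 2 ≤ ∑ b ∈ B', t * (w b * ‖As C a b‖ ^ 2) :=
        Finset.sum_le_sum fun b hb => by
          rw [← mul_assoc]
          exact mul_le_mul_of_nonneg_right (hw' b hb) (sq_nonneg _)
    _ ≤ ∑ b ∈ B, t * (w b * ‖As C a b‖ ^ 2) :=
        Finset.sum_le_sum_of_subset_of_nonneg hB fun b hb _ =>
          mul_nonneg ht (mul_nonneg (hw b hb) (sq_nonneg _))
    _ ≤ t * (Bd * nsq C a) := by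
        rw [← Finset.mul_sum]
        exact mul_le_mul_of_nonneg_left (h C a hC) ht
    _ ≤ Bd' * nsq C a := by
        rw [← mul_assoc]
        exact mul_le_mul_of_nonneg_right hBd (nsq_nonneg C a)

theorem erra_key {y K K₁ ξ : ℝ} (hy : 0 < y) (hyK : y ≤ K) (hξ : 1 / 2 ≤ ξ) (hξ' : ξ ≤ 2)
    (hK₁ : 0 < K₁) : Real.sqrt (K₁ / y) * (2 * y) ^ ξ ≤ 4 * Real.sqrt K₁ * K ^ (ξ - 1 / 2) := by
  have h1 : (2 : ℝ) ^ ξ ≤ 4 := by
    have := Real.rpow_le_rpow_of_exponent_le (show (1 : ℝ) ≤ 2 by norm_num) hξ'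
    rw [Real.rpow_two] at this
    linarith
  have h2 : y ^ (ξ - 1 / 2) ≤ K ^ (ξ - 1 / 2) := Real.rpow_le_rpow hy.le hyK (by linarith)
  have h3 : y ^ ξ = y ^ (ξ - 1 / 2) * Real.sqrt y := by
    rw [Real.sqrt_eq_rpow, ← Real.rpow_add hy, sub_add_cancel]
  have h4 : 0 < Real.sqrt y := Real.sqrt_pos.2 hy
  rw [Real.mul_rpow (by norm_num) hy.le, h3, Real.sqrt_div hK₁.le]
  calc Real.sqrt K₁ / Real.sqrt y * (2 ^ ξ * (y ^ (ξ - 1 / 2) * Real.sqrt y))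
      = 2 ^ ξ * Real.sqrt K₁ * y ^ (ξ - 1 / 2) := by field_simp
    _ ≤ 4 * Real.sqrt K₁ * K ^ (ξ - 1 / 2) := by gcongr

theorem erra_block {K N N₀ D ξ K₁ y : ℝ} (h : Hyp K N D ξ) (hK : 0 < K) (hD : 0 ≤ D)
    (hξ : 1 / 2 ≤ ξ) (hξ' : ξ ≤ 2) (hN₀ : 1 ≤ N₀) (hN : N₀ ≤ N) (hK₁ : 0 < K₁) (hy : 0 < y)
    {B : Finset O} (hB : Rows K B) (hB' : ∀ b ∈ B, y ≤ nm b ∧ nm b ≤ 2 * y) :
    RowW N₀ B (fun b => min 1 (Real.sqrt (K₁ / nm b)))
      (D * (4 * Real.sqrt K₁ * K ^ (ξ - 1 / 2) + N₀)) := by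
  rcases B.eq_empty_or_nonempty with rfl | ⟨b₀, hb₀⟩
  · intro C a _
    rw [Finset.sum_empty]
    exact mul_nonneg (by positivity) (nsq_nonneg C a)
  have hyK : y ≤ K := (hB' b₀ hb₀).1.trans (hB b₀ hb₀).2
  have h1 : RowW N₀ B (fun _ => 1) (D * ((2 * y) ^ ξ + N₀)) := fun C a hC => by
    simp only [one_mul]
    exact h (2 * y) N₀ (by positivity) (by linarith) hN₀ hN B C a
      (fun b hb => ⟨(hB b hb).1, (hB' b hb).2⟩) hC
  have hW : 0 ≤ min 1 (Real.sqrt (K₁ / y)) := le_min zero_le_one (Real.sqrt_nonneg _)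
  refine h1.mono subset_rfl (fun _ _ => zero_le_one) hW (fun b hb => ?_) ?_
  · rw [mul_one]
    exact min_le_min le_rfl (Real.sqrt_le_sqrt (div_le_div_of_nonneg_left hK₁.le hy (hB' b hb).1))
  · rw [mul_left_comm, mul_add]
    refine mul_le_mul_of_nonneg_left (add_le_add ?_ ?_) hD
    · exact (mul_le_mul_of_nonneg_right (min_le_right _ _) (by positivity)).trans
        (erra_key hy hyK hξ hξ' hK₁)
    · exact mul_le_of_le_one_left (by linarith) (min_le_left _ _)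

/-- dyadic blocks `2^i ≤ nm b < 2^(i+1)`, `i ≤ Nat.log 2 ⌊K⌋₊` (`Finset.sum_fiberwise_of_maps_to`);
in a block `2^i ≤ K`, `Hyp` at `K₀ = 2^(i+1)`, `min 1 √(K₁/2^i) · (2^(i+1))^ξ ≤ 4 √K₁ K^(ξ-1/2)`;
at most `2 + 2 log Z` blocks -/
theorem row_weight {Z K N N₀ D ξ K₁ : ℝ} (h : Hyp K N D ξ) (hZ : 1 ≤ Z) (hK : 0 < K) (hKZ : K ≤ Z)
    (hD : 0 ≤ D) (hξ : 1 / 2 ≤ ξ) (hξ' : ξ ≤ 2) (hN₀ : 1 ≤ N₀) (hN : N₀ ≤ N) (hK₁ : 0 < K₁)
    {B : Finset O} (hB : Rows K B) :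
    RowW N₀ B (fun b => min 1 (Real.sqrt (K₁ / nm b)))
      ((2 + 2 * Real.log Z) * D * (4 * Real.sqrt K₁ * K ^ (ξ - 1 / 2) + N₀)) := by
  intro C a hC
  obtain ⟨L, hL⟩ : ∃ L, L = Nat.log 2 ⌊K⌋₊ := ⟨_, rfl⟩
  have hmap : ∀ b ∈ B, Nat.log 2 ⌊nm b⌋₊ ∈ Finset.range (L + 1) := fun b hb => by
    rw [Finset.mem_range, Nat.lt_succ_iff, hL]
    exact Nat.log_mono_right (Nat.floor_le_floor (hB b hb).2)
  have hLZ : ((L + 1 : ℕ) : ℝ) ≤ 2 + 2 * Real.log Z := by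
    have h1 : (2 : ℝ) ^ L ≤ Z := by
      rcases eq_or_ne ⌊K⌋₊ 0 with h0 | h0
      · rw [hL, h0, Nat.log_zero_right, pow_zero]
        exact hZ
      · have h2 : ((2 ^ L : ℕ) : ℝ) ≤ (⌊K⌋₊ : ℝ) := by
          rw [hL]
          exact Nat.cast_le.2 (Nat.pow_log_le_self 2 h0)
        rw [Nat.cast_pow, Nat.cast_ofNat] at h2
        exact h2.trans ((Nat.floor_le hK.le).trans hKZ)
    have h2 := Real.log_le_log (by positivity) h1
    rw [Real.log_pow] at h2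
    have h3 := Real.log_two_gt_d9
    have h4 : (0 : ℝ) ≤ L := Nat.cast_nonneg L
    push_cast
    nlinarith
  have hn := nsq_nonneg C a
  rw [← Finset.sum_fiberwise_of_maps_to hmap]
  refine (Finset.sum_le_card_nsmul _ _
    (D * (4 * Real.sqrt K₁ * K ^ (ξ - 1 / 2) + N₀) * nsq C a) fun i _ => ?_).trans ?_
  · refine erra_block h hK hD hξ hξ' hN₀ hN hK₁ (y := 2 ^ i) (by positivity)
      (fun b hb => hB b (Finset.mem_filter.1 hb).1) (fun b hb => ?_) C a hC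
    obtain ⟨hb1, hb2⟩ := Finset.mem_filter.1 hb
    have h0 : ⌊nm b⌋₊ ≠ 0 := (Nat.floor_pos.2 (one_le_nm (hB b hb1).1.ne_zero)).ne'
    have h1 := Nat.pow_log_le_self 2 h0
    have h2 := Nat.succ_le_of_lt (Nat.lt_pow_succ_log_self one_lt_two ⌊nm b⌋₊)
    rw [hb2] at h1 h2
    rw [Nat.succ_eq_add_one, Nat.succ_eq_add_one, pow_succ'] at h2
    have h3 := Nat.floor_le (nm_nonneg b)
    have h4 := Nat.lt_floor_add_one (nm b)
    have h5 : (2 : ℝ) ^ i ≤ ⌊nm b⌋₊ := by exact_mod_cast h1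
    have h6 : (⌊nm b⌋₊ : ℝ) + 1 ≤ 2 * 2 ^ i := by exact_mod_cast h2
    exact ⟨by linarith, by linarith⟩
  · rw [Finset.card_range, nsmul_eq_mul, mul_assoc _ D, mul_assoc (2 + 2 * Real.log Z)]
    exact mul_le_mul_of_nonneg_right hLZ (by positivity)

/-- `bil1` with `θ = 0`, `F = Δ`, `X b = M / nm b ≤ Z`, `w = Z^σ`, `Hyp` at `K₀ = K` -/
theorem perr_bound {σ : ℝ} (h0 : 0 < σ) (h1 : σ < 1 / 2) : ∃ C₀ : ℝ, 0 < C₀ ∧
    ∀ (Z M N N₀ K D ξ d : ℝ) (B Δ : Finset O) (C : Finset (Finset O)) (a₁ a₂ : Finset O → ℂ),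
      1 ≤ M → M ≤ Z → 0 < K → 0 ≤ D → Hyp K N D ξ → 1 ≤ N₀ → N₀ ≤ N → Rows K B → Cols N₀ C →
      PSet Δ → (2 : ℝ) ^ Δ.card ≤ d → (∀ m ∈ C, (2 : ℝ) ^ m.card ≤ d ∧ Disjoint m Δ) →
      ‖Bi C a₁ a₂ (PErr M B Δ)‖ ≤ C₀ * Z ^ σ * d ^ 4 * D * (K ^ ξ + N) * (nsq C a₁ + nsq C a₂) := by
  obtain ⟨C₀, hC₀, H⟩ := bil1 h0 h1
  refine ⟨C₀, hC₀, fun Z M N N₀ K D ξ d B Δ C a₁ a₂ hM hMZ hK hD h hN₀ hN hB hC hΔ hd hm => ?_⟩
  have hZ : 0 < Z := by linarith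
  have hW : RowW N₀ B (fun _ => Z ^ σ) (Z ^ σ * (D * (K ^ ξ + N₀))) := fun C a hC => by
    rw [← Finset.mul_sum, mul_assoc]
    exact mul_le_mul_of_nonneg_left (h K N₀ hK (by linarith) hN₀ hN B C a hB hC) (by positivity)
  have h2 := H N₀ _ d 0 B Δ _ (fun b => M / nm b) (fun b => if cop Δ b then 1 else 0) C a₁ a₂ hW
    (by positivity) hC hΔ hd hm fun b hb => by
      have h3 := one_le_nm (hB b hb).1.ne_zero
      have h4 : 0 < M / nm b := by positivity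
      refine ⟨h4, (mul_le_of_le_one_left (by positivity) ?_).trans
        (Real.rpow_le_rpow h4.le ((div_le_self (by linarith) h3).trans hMZ) h0.le)⟩
      split_ifs <;> simp
  simp only [pow_zero, mul_one] at h2
  refine le_trans h2 (mul_le_mul_of_nonneg_right ?_ (add_nonneg (nsq_nonneg _ _) (nsq_nonneg _ _)))
  calc C₀ * (Z ^ σ * (D * (K ^ ξ + N₀))) * d ^ 4 = C₀ * Z ^ σ * d ^ 4 * D * (K ^ ξ + N₀) := by ring
    _ ≤ C₀ * Z ^ σ * d ^ 4 * D * (K ^ ξ + N) := by gcongr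

theorem derr_Bi_add (C : Finset (Finset O)) (a₁ a₂ F G : Finset O → ℂ) :
    Bi C a₁ a₂ (fun Q => F Q + G Q) = Bi C a₁ a₂ F + Bi C a₁ a₂ G := by
  unfold Bi
  rw [← Finset.sum_add_distrib]
  refine Finset.sum_congr rfl fun m₁ _ => ?_
  rw [← Finset.sum_add_distrib]
  refine Finset.sum_congr rfl fun m₂ _ => ?_
  split_ifs
  · ring
  · simp

theorem derr_nsq {N₀ : ℝ} (hN₀ : 1 ≤ N₀) {C : Finset (Finset O)} (h : ∀ m ∈ C, N₀ ≤ 2 * NS m)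
    (a : Finset O → ℂ) :
    nsq C (fun m => a m / (Real.sqrt (NS m) : ℂ)) ≤ 2 / N₀ * nsq C a := by
  unfold nsq
  rw [Finset.mul_sum]
  refine Finset.sum_le_sum fun m hm => ?_
  have h1 := h m hm
  have h2 : 0 < NS m := by linarith
  rw [norm_div, div_pow, Complex.norm_real, Real.norm_eq_abs, sq_abs, Real.sq_sqrt h2.le,
    div_eq_inv_mul]
  refine mul_le_mul_of_nonneg_right ?_ (by positivity)
  rw [inv_eq_one_div, div_le_div_iff₀ h2 (by linarith)]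
  linarith

theorem derr_eq {M N₀ : ℝ} (hN₀ : 1 ≤ N₀) (B e : Finset O) {C : Finset (Finset O)}
    (hC : Cols N₀ C) (a₁ a₂ : Finset O → ℂ) :
    Bi C a₁ a₂ (DErr M B e) = ((M / NS e : ℝ) : ℂ) *
      Bi C (fun m => a₁ m / (Real.sqrt (NS m) : ℂ)) (fun m => a₂ m / (Real.sqrt (NS m) : ℂ))
        fun Q => ∑ b ∈ B, 1 * ch Q b * (Er (Q ∪ ∅)
          (NS (e.filter (· ∣ b)) ^ 2 * N₀ ^ 2 / (M * nm b) * (NS Q / N₀ ^ 2) ^ 1) : ℂ) := by
  unfold Bi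
  rw [Finset.mul_sum]
  refine Finset.sum_congr rfl fun m₁ h₁ => ?_
  rw [Finset.mul_sum]
  refine Finset.sum_congr rfl fun m₂ h₂ => ?_
  split_ifs with hd
  · have p1 : 0 < NS m₁ := lt_of_lt_of_le one_pos (hC m₁ h₁).1.one_le_NS
    have hN : N₀ ≠ 0 := by linarith
    have e1 : ∀ b, NS (e.filter (· ∣ b)) ^ 2 * N₀ ^ 2 / (M * nm b) * (NS (m₁ ∪ m₂) / N₀ ^ 2) ^ 1 =
        NS (e.filter (· ∣ b)) ^ 2 * NS (m₁ ∪ m₂) / (M * nm b) := fun b => by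
      rw [pow_one, div_mul_div_comm, mul_right_comm, mul_div_mul_right _ _ (pow_ne_zero 2 hN)]
    simp only [DErr, e1, Finset.union_empty, one_mul]
    rw [NS_union hd, Real.sqrt_mul p1.le]
    push_cast
    ring
  · simp

/-- `K₁ = NS e ^ 2 * N₀ ^ 2 / M ∈ [1/Z, Z²]`, `X b = NS (e.filter (· ∣ b)) ^ 2 * N₀ ^ 2 / (M * nm b) ≤ K₁ / nm b`,
`θ = 1`, `F = ∅`, coefficients `aᵢ m / √(NS m)` (`nsq ≤ (2 / N₀) nsq`).  Split `B` into `nm b ≤ K₁`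
(`bil1` at `σ`: `X^σ ≤ Z^(2σ)`) and `nm b > K₁` (`bil1` at `1/2 - σ`:
`X^(1/2-σ) ≤ √(K₁/nm b) (nm b/K₁)^σ ≤ Z^(2σ) √(K₁/nm b)`); both weights are `≤ Z^(2σ)` times the weight
of `row_weight`; finally `M / (NS e N₀) · √K₁ = √M`, `M / NS e ≤ M`. -/
theorem derr_bound {σ : ℝ} (h0 : 0 < σ) (h1 : σ < 1 / 2) : ∃ C₀ : ℝ, 0 < C₀ ∧
    ∀ (Z M N N₀ K D ξ d : ℝ) (B e : Finset O) (C : Finset (Finset O)) (a₁ a₂ : Finset O → ℂ),
      1 ≤ M → M ≤ Z → N ≤ Z → 0 < K → K ≤ Z → 0 ≤ D → 1 / 2 ≤ ξ → ξ ≤ 2 → Hyp K N D ξ →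
      1 ≤ N₀ → NS e * N₀ ≤ N → Rows K B → Cols N₀ C → PSet e → 1 ≤ d →
      (∀ m ∈ C, (2 : ℝ) ^ m.card ≤ d ∧ N₀ ≤ 2 * NS m) →
      ‖Bi C a₁ a₂ (DErr M B e)‖ ≤ C₀ * Z ^ (2 * σ) * (1 + Real.log Z) * d ^ 4 * D *
        (M + Real.sqrt M * K ^ (ξ - 1 / 2)) * (nsq C a₁ + nsq C a₂) := by
  obtain ⟨C₁, hC₁, b1⟩ := bil1 h0 h1
  obtain ⟨C₂, hC₂, b2⟩ := bil1 (σ := 1 / 2 - σ) (by linarith) (by linarith)
  refine ⟨16 * (C₁ + C₂), by positivity, ?_⟩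
  intro Z M N N₀ K D ξ d B e C a₁ a₂ hM hMZ hNZ hK hKZ hD hξ hξ' hH hN₀ heN hB hC he hd hm
  have hZ : 1 ≤ Z := hM.trans hMZ
  have hE : 1 ≤ NS e := he.one_le_NS
  have hM0 : 0 < M := by linarith
  have hN₀N : N₀ ≤ N := le_trans (le_mul_of_one_le_left (by linarith) hE) heN
  have hlog : 0 ≤ Real.log Z := Real.log_nonneg hZ
  set K₁ : ℝ := (NS e * N₀) ^ 2 / M with hK₁def
  have hEN : 1 ≤ NS e * N₀ := one_le_mul_of_one_le_of_one_le hE hN₀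
  have hK₁ : 0 < K₁ := by positivity
  have hK₁Z : K₁ ≤ Z ^ 2 := by
    refine le_trans (div_le_self (by positivity) hM) ?_
    exact pow_le_pow_left₀ (by linarith) (heN.trans hNZ) 2
  have hK₁Z' : 1 ≤ K₁ * Z := by
    rw [hK₁def, div_mul_eq_mul_div, le_div_iff₀ hM0, one_mul]
    exact hMZ.trans (le_mul_of_one_le_left (by linarith) (one_le_pow₀ hEN))
  set w : O → ℝ := fun b => min 1 (Real.sqrt (K₁ / nm b)) with hw
  set W : ℝ := (2 + 2 * Real.log Z) * D * (4 * Real.sqrt K₁ * K ^ (ξ - 1 / 2) + N₀) with hW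
  have hW0 : 0 ≤ W := by positivity
  have hRW : RowW N₀ B w W := row_weight hH hZ hK hKZ hD hξ hξ' hN₀ hN₀N hK₁ hB
  have hw0 : ∀ b ∈ B, 0 ≤ w b := fun b _ => le_min zero_le_one (Real.sqrt_nonneg _)
  set T : ℝ := Z ^ (2 * σ) with hT
  have hT0 : 0 ≤ T := by positivity
  have hT2 : (Z ^ 2) ^ σ = T := by
    rw [hT, Real.rpow_mul (by linarith), Real.rpow_two]
  have hRW' : ∀ B' ⊆ B, RowW N₀ B' (fun b => T * w b) (T * W) := fun B' hB' =>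
    hRW.mono hB' hw0 hT0 (fun _ _ => le_rfl) le_rfl
  set X : O → ℝ := fun b => NS (e.filter (· ∣ b)) ^ 2 * N₀ ^ 2 / (M * nm b) with hX
  have hb1 : ∀ b ∈ B, 1 ≤ nm b := fun b hb => one_le_nm (hB b hb).1.ne_zero
  have hX0 : ∀ b ∈ B, 0 < X b := fun b hb => by
    have := hb1 b hb
    have := (he.mono (Finset.filter_subset (· ∣ b) e)).one_le_NS
    simp only [hX]
    positivity
  have hXK : ∀ b ∈ B, X b ≤ K₁ / nm b := fun b hb => by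
    have a1 := hb1 b hb
    have a2 := (he.mono (Finset.filter_subset (· ∣ b) e)).one_le_NS
    have a3 := he.NS_mono (Finset.filter_subset (· ∣ b) e)
    simp only [hX]
    rw [hK₁def, div_div, mul_pow]
    gcongr
  set a₁' : Finset O → ℂ := fun m => a₁ m / (Real.sqrt (NS m) : ℂ) with ha₁'
  set a₂' : Finset O → ℂ := fun m => a₂ m / (Real.sqrt (NS m) : ℂ) with ha₂'
  have hcard : ∀ m ∈ C, (2 : ℝ) ^ m.card ≤ d ∧ Disjoint m (∅ : Finset O) := fun m h =>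
    ⟨(hm m h).1, Finset.disjoint_empty_right _⟩
  have hP : PSet ∅ := fun p hp => absurd hp (Finset.notMem_empty p)
  have hd0 : (2 : ℝ) ^ (∅ : Finset O).card ≤ d := by simpa using hd
  have c1 := b1 N₀ (T * W) d 1 (B.filter fun b => nm b ≤ K₁) ∅ (fun b => T * w b) X (fun _ => 1) C
    a₁' a₂' (hRW' _ (Finset.filter_subset _ _)) (by positivity) hC hP hd0 hcard (fun b hb => by
      obtain ⟨hb, hbK⟩ := Finset.mem_filter.mp hb
      have a1 := hb1 b hb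
      refine ⟨hX0 b hb, ?_⟩
      have a2 : w b = 1 := min_eq_left (Real.one_le_sqrt.mpr (by rw [le_div_iff₀ (by linarith)]; linarith))
      rw [a2, norm_one, one_mul, mul_one, ← hT2]
      exact Real.rpow_le_rpow (hX0 b hb).le
        ((hXK b hb).trans ((div_le_self hK₁.le a1).trans hK₁Z)) h0.le)
  have c2 := b2 N₀ (T * W) d 1 (B.filter fun b => ¬ nm b ≤ K₁) ∅ (fun b => T * w b) X (fun _ => 1) C
    a₁' a₂' (hRW' _ (Finset.filter_subset _ _)) (by positivity) hC hP hd0 hcard (fun b hb => by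
      obtain ⟨hb, hbK⟩ := Finset.mem_filter.mp hb
      have a1 := hb1 b hb
      have hbK' : K₁ < nm b := not_le.mp hbK
      refine ⟨hX0 b hb, ?_⟩
      have a0 : 0 < K₁ / nm b := by positivity
      have a2 : w b = Real.sqrt (K₁ / nm b) :=
        min_eq_right (Real.sqrt_le_one.mpr ((div_le_one (by linarith)).mpr hbK'.le))
      rw [a2, norm_one, one_mul, ← hT2]
      refine (Real.rpow_le_rpow (hX0 b hb).le (hXK b hb) (by linarith)).trans ?_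
      rw [Real.rpow_sub a0, ← Real.sqrt_eq_rpow, div_eq_mul_inv (Real.sqrt _), mul_comm,
        ← Real.inv_rpow a0.le]
      refine mul_le_mul_of_nonneg_right (Real.rpow_le_rpow (by positivity) ?_ h0.le)
        (Real.sqrt_nonneg _)
      rw [inv_div, div_le_iff₀ hK₁]
      have a3 : nm b ≤ Z := (hB b hb).2.trans hKZ
      nlinarith)
  have hsplit : (fun Q : Finset O => ∑ b ∈ B, 1 * ch Q b * (Er (Q ∪ ∅) (X b * (NS Q / N₀ ^ 2) ^ 1) : ℂ)) =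
      fun Q => (∑ b ∈ B.filter fun b => nm b ≤ K₁,
          1 * ch Q b * (Er (Q ∪ ∅) (X b * (NS Q / N₀ ^ 2) ^ 1) : ℂ)) +
        ∑ b ∈ B.filter fun b => ¬ nm b ≤ K₁,
          1 * ch Q b * (Er (Q ∪ ∅) (X b * (NS Q / N₀ ^ 2) ^ 1) : ℂ) := by
    funext Q
    rw [Finset.sum_filter_add_sum_filter_not]
  have hn1 := derr_nsq hN₀ (fun m h => (hm m h).2) a₁
  have hn2 := derr_nsq hN₀ (fun m h => (hm m h).2) a₂
  have hq1 := nsq_nonneg C a₁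
  have hq2 := nsq_nonneg C a₂
  have hn : nsq C a₁' + nsq C a₂' ≤ 2 / N₀ * (nsq C a₁ + nsq C a₂) := by
    rw [mul_add]; exact add_le_add hn1 hn2
  have hsq : Real.sqrt K₁ = NS e * N₀ / Real.sqrt M := by
    rw [hK₁def, Real.sqrt_div (by positivity), Real.sqrt_sq (by linarith)]
  have hsM : 0 < Real.sqrt M := Real.sqrt_pos.mpr hM0
  have hkey : M / NS e * (2 / N₀) * W ≤
      16 * (1 + Real.log Z) * D * (M + Real.sqrt M * K ^ (ξ - 1 / 2)) := by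
    have e1 : M / NS e * (2 / N₀) * W =
        4 * (1 + Real.log Z) * D * (4 * (Real.sqrt M * K ^ (ξ - 1 / 2)) + M / NS e) := by
      have hMM : M = Real.sqrt M * Real.sqrt M := (Real.mul_self_sqrt hM0.le).symm
      have hN0 : N₀ ≠ 0 := by linarith
      have hE0 : NS e ≠ 0 := by linarith
      rw [hW, hsq]
      generalize Real.sqrt M = r at hMM hsM
      rw [hMM]
      field_simp
      ring
    have e2 : M / NS e ≤ M := div_le_self hM0.le hE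
    have e3 : 0 ≤ 4 * (1 + Real.log Z) * D := by positivity
    rw [e1]
    calc _ ≤ 4 * (1 + Real.log Z) * D * (4 * (M + Real.sqrt M * K ^ (ξ - 1 / 2))) :=
          mul_le_mul_of_nonneg_left (by linarith) e3
      _ = _ := by ring
  rw [derr_eq hN₀ B e hC]
  change ‖_ * Bi C a₁' a₂' (fun Q : Finset O => ∑ b ∈ B, 1 * ch Q b *
    (Er (Q ∪ ∅) (X b * (NS Q / N₀ ^ 2) ^ 1) : ℂ))‖ ≤ _
  rw [hsplit, derr_Bi_add, norm_mul, Complex.norm_real, Real.norm_of_nonneg (by positivity)]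
  have hd4 : 0 ≤ d ^ 4 := by positivity
  calc _ ≤ M / NS e * (C₁ * (T * W) * d ^ 4 * (nsq C a₁' + nsq C a₂') +
          C₂ * (T * W) * d ^ 4 * (nsq C a₁' + nsq C a₂')) :=
        mul_le_mul_of_nonneg_left ((norm_add_le _ _).trans (add_le_add c1 c2)) (by positivity)
    _ = M / NS e * ((C₁ + C₂) * (T * W) * d ^ 4) * (nsq C a₁' + nsq C a₂') := by ring
    _ ≤ M / NS e * ((C₁ + C₂) * (T * W) * d ^ 4) * (2 / N₀ * (nsq C a₁ + nsq C a₂)) :=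
        mul_le_mul_of_nonneg_left hn (by positivity)
    _ = (C₁ + C₂) * T * d ^ 4 * (nsq C a₁ + nsq C a₂) * (M / NS e * (2 / N₀) * W) := by ring
    _ ≤ (C₁ + C₂) * T * d ^ 4 * (nsq C a₁ + nsq C a₂) *
          (16 * (1 + Real.log Z) * D * (M + Real.sqrt M * K ^ (ξ - 1 / 2))) :=
        mul_le_mul_of_nonneg_left hkey (by positivity)
    _ = _ := by ring

end Crest.Agent.R27.E
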