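import Crest.Agent.R27.E.Id
import Crest.Agent.R27.E.Err
import Crest.Agent.R27.E.Reg

/-!
Row 27, block E: the energy over the big rows for one dyadic block of columns.
-/

set_option autoImplicit false

namespace Crest.Agent.R27.E

open scoped Classical ComplexConjugate

variable [ED]

theorem corea_Bi_lin {ι : Type} (C : Finset (Finset O)) (a₁ a₂ : Finset O → ℂ) (F : Finset O → ℂ)
    (E : Finset ι) (s : ι → ℂ) (G : ι → Finset O → ℂ) (c : ℂ) :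
    (Bi C a₁ a₂ fun Q => -(c * F Q) + ∑ e ∈ E, s e * (c * G e Q)) =
      -(c * Bi C a₁ a₂ F) + ∑ e ∈ E, s e * (c * Bi C a₁ a₂ (G e)) := by
  have h1 : ∑ e ∈ E, s e * (c * Bi C a₁ a₂ (G e)) = ∑ m₁ ∈ C, ∑ m₂ ∈ C, ∑ e ∈ E,
      s e * (c * if Disjoint m₁ m₂ then a₁ m₁ * a₂ m₂ * G e (m₁ ∪ m₂) else 0) := by
    simp only [Bi, Finset.mul_sum]
    rw [Finset.sum_comm]
    exact Finset.sum_congr rfl fun m₁ _ => Finset.sum_comm
  rw [h1]
  simp only [Bi, Finset.mul_sum, ← Finset.sum_neg_distrib, ← Finset.sum_add_distrib]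
  refine Finset.sum_congr rfl fun m₁ _ => Finset.sum_congr rfl fun m₂ _ => ?_
  split_ifs with h
  · rw [mul_add, Finset.mul_sum]
    congr 1
    · ring
    · exact Finset.sum_congr rfl fun e _ => by ring
  · simp

/-- One gcd `Δ`: `N₀ = N / NS Δ` (if `sub C Δ` is non-empty then `1 ≤ N₀`; `mem_sub`, `NS_union`),
`perr_bound`, and `derr_bound` for each of the `2^|Δ| ≤ d` subsets `e`; `Bi` is linear in `F`. -/
theorem delta_bound {σ : ℝ} (h0 : 0 < σ) (h1 : σ < 1 / 2) : ∃ C₀ : ℝ, 0 < C₀ ∧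
    ∀ (Z M N K D ξ d : ℝ) (B Δ : Finset O) (C : Finset (Finset O)) (a₁ a₂ : Finset O → ℂ),
      1 ≤ M → M ≤ Z → 1 ≤ N → N ≤ Z → 0 < K → K ≤ Z → 0 ≤ D → 1 / 2 ≤ ξ → ξ ≤ 2 → Hyp K N D ξ →
      Rows K B → Cols N C → 1 ≤ d → (∀ S ∈ C, (2 : ℝ) ^ S.card ≤ d ∧ N ≤ 2 * NS S) →
      ‖Bi (sub C Δ) a₁ a₂ fun Q => -((1 : ℂ) * PErr M B Δ Q) +
          ∑ e ∈ Δ.powerset, (-1) ^ e.card * ((1 : ℂ) * DErr M B e Q)‖ ≤
        C₀ * Z ^ (2 * σ) * (1 + Real.log Z) * d ^ 5 * D * Out M N K ξ *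
          (nsq (sub C Δ) a₁ + nsq (sub C Δ) a₂) := by
  obtain ⟨C₁, hC₁, H₁⟩ := perr_bound h0 h1
  obtain ⟨C₂, hC₂, H₂⟩ := derr_bound h0 h1
  refine ⟨C₁ + C₂, by positivity, ?_⟩
  intro Z M N K D ξ d B Δ C a₁ a₂ hM hMZ hN hNZ hK hKZ hD hξ hξ' hH hB hC hd hS
  have hZ : 1 ≤ Z := hM.trans hMZ
  have hlog : 0 ≤ Real.log Z := Real.log_nonneg hZ
  have hn : 0 ≤ nsq (sub C Δ) a₁ + nsq (sub C Δ) a₂ := add_nonneg (nsq_nonneg _ _) (nsq_nonneg _ _)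
  have hs : 0 ≤ Real.sqrt M * K ^ (ξ - 1 / 2) := by positivity
  have hk : 0 ≤ K ^ ξ := by positivity
  have hO1 : K ^ ξ + N ≤ Out M N K ξ := by unfold Out; linarith
  have hO2 : M + Real.sqrt M * K ^ (ξ - 1 / 2) ≤ Out M N K ξ := by unfold Out; linarith
  have hO : 0 ≤ Out M N K ξ := le_trans (by linarith) hO1
  rcases (sub C Δ).eq_empty_or_nonempty with he | ⟨m₀, hm₀⟩
  · have : (Bi (sub C Δ) a₁ a₂ fun Q => -((1 : ℂ) * PErr M B Δ Q) +
          ∑ e ∈ Δ.powerset, (-1) ^ e.card * ((1 : ℂ) * DErr M B e Q)) = 0 := by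
      rw [he]; simp [Bi]
    rw [this, norm_zero]
    positivity
  have hm₀' := mem_sub.1 hm₀
  have hPΔ : PSet Δ := (hC _ hm₀'.2).1.mono Finset.subset_union_right
  have hΔ1 : 1 ≤ NS Δ := hPΔ.one_le_NS
  have hΔ0 : 0 < NS Δ := by linarith
  have hpow : ∀ S T : Finset O, T ∈ C → S ⊆ T → (2 : ℝ) ^ S.card ≤ d := fun S T hT hST =>
    (pow_le_pow_right₀ (by norm_num) (Finset.card_le_card hST)).trans (hS T hT).1
  have hΔd : (2 : ℝ) ^ Δ.card ≤ d := hpow _ _ hm₀'.2 Finset.subset_union_right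
  have hcols : Cols (N / NS Δ) (sub C Δ) := by
    intro m hm
    obtain ⟨p1, p2⟩ := mem_sub.1 hm
    refine ⟨(hC _ p2).1.mono Finset.subset_union_left, ?_⟩
    rw [le_div_iff₀ hΔ0, ← NS_union p1]
    exact (hC _ p2).2
  have hN₀ : 1 ≤ N / NS Δ := (hcols _ hm₀).1.one_le_NS.trans (hcols _ hm₀).2
  have hN₀' : N / NS Δ ≤ N := div_le_self (by linarith) hΔ1
  have e1 := H₁ Z M N (N / NS Δ) K D ξ d B Δ (sub C Δ) a₁ a₂ hM hMZ hK hD hH hN₀ hN₀' hB hcols hPΔ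
    hΔd fun m hm => ⟨hpow _ _ (mem_sub.1 hm).2 Finset.subset_union_left, (mem_sub.1 hm).1⟩
  have e2 : ∀ e ∈ Δ.powerset, ‖Bi (sub C Δ) a₁ a₂ (DErr M B e)‖ ≤
      C₂ * Z ^ (2 * σ) * (1 + Real.log Z) * d ^ 4 * D * Out M N K ξ *
        (nsq (sub C Δ) a₁ + nsq (sub C Δ) a₂) := by
    intro e he
    have heΔ := Finset.mem_powerset.1 he
    have q1 : NS e * (N / NS Δ) ≤ N := by
      calc NS e * (N / NS Δ) ≤ NS Δ * (N / NS Δ) :=
            mul_le_mul_of_nonneg_right (hPΔ.NS_mono heΔ) (by linarith)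
        _ = N := by field_simp
    refine (H₂ Z M N (N / NS Δ) K D ξ d B e (sub C Δ) a₁ a₂ hM hMZ hNZ hK hKZ hD hξ hξ' hH hN₀ q1 hB
      hcols (hPΔ.mono heΔ) hd fun m hm => ⟨hpow _ _ (mem_sub.1 hm).2 Finset.subset_union_left, ?_⟩).trans ?_
    · obtain ⟨p1, p2⟩ := mem_sub.1 hm
      rw [div_le_iff₀ hΔ0, mul_assoc, ← NS_union p1]
      exact (hS _ p2).2
    · gcongr
  have e3 : ‖Bi (sub C Δ) a₁ a₂ (PErr M B Δ)‖ ≤
      C₁ * Z ^ (2 * σ) * (1 + Real.log Z) * d ^ 5 * D * Out M N K ξ *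
        (nsq (sub C Δ) a₁ + nsq (sub C Δ) a₂) := by
    refine e1.trans ?_
    have q1 : Z ^ σ ≤ Z ^ (2 * σ) * (1 + Real.log Z) := by
      have r1 : Z ^ σ ≤ Z ^ (2 * σ) := Real.rpow_le_rpow_of_exponent_le hZ (by linarith)
      have r2 : 0 ≤ Z ^ (2 * σ) := by positivity
      nlinarith [mul_nonneg r2 hlog]
    have q2 : d ^ 4 ≤ d ^ 5 := pow_le_pow_right₀ hd (by norm_num)
    calc C₁ * Z ^ σ * d ^ 4 * D * (K ^ ξ + N) * (nsq (sub C Δ) a₁ + nsq (sub C Δ) a₂)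
        ≤ C₁ * (Z ^ (2 * σ) * (1 + Real.log Z)) * d ^ 5 * D * Out M N K ξ *
          (nsq (sub C Δ) a₁ + nsq (sub C Δ) a₂) := by gcongr
      _ = _ := by ring
  rw [corea_Bi_lin]
  have hc : ‖(1 : ℂ)‖ ≤ 1 := norm_one.le
  have e4 : ∀ z : ℂ, ‖(1 : ℂ) * z‖ ≤ ‖z‖ := fun z => by
    rw [norm_mul]; exact mul_le_of_le_one_left (norm_nonneg _) hc
  have e5 : ‖∑ e ∈ Δ.powerset, (-1) ^ e.card * ((1 : ℂ) * Bi (sub C Δ) a₁ a₂ (DErr M B e))‖ ≤
      d * (C₂ * Z ^ (2 * σ) * (1 + Real.log Z) * d ^ 4 * D * Out M N K ξ *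
        (nsq (sub C Δ) a₁ + nsq (sub C Δ) a₂)) := by
    refine (norm_sum_le _ _).trans ((Finset.sum_le_card_nsmul _ _
      (C₂ * Z ^ (2 * σ) * (1 + Real.log Z) * d ^ 4 * D * Out M N K ξ *
        (nsq (sub C Δ) a₁ + nsq (sub C Δ) a₂)) fun e he => ?_).trans ?_)
    · rw [norm_mul, norm_pow, norm_neg, norm_one, one_pow, one_mul]
      exact (e4 _).trans (e2 e he)
    · rw [nsmul_eq_mul, Finset.card_powerset]
      push_cast
      gcongr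
  refine (norm_add_le _ _).trans ?_
  rw [norm_neg]
  have e6 := (e4 _).trans e3
  calc _ ≤ C₁ * Z ^ (2 * σ) * (1 + Real.log Z) * d ^ 5 * D * Out M N K ξ *
        (nsq (sub C Δ) a₁ + nsq (sub C Δ) a₂) +
        d * (C₂ * Z ^ (2 * σ) * (1 + Real.log Z) * d ^ 4 * D * Out M N K ξ *
        (nsq (sub C Δ) a₁ + nsq (sub C Δ) a₂)) := add_le_add e6 e5
    _ = _ := by ring

theorem coreb_NS {S T e : Finset O} (hS : PSet S) (hT : PSet T) {N : ℝ} (h1 : NS S ≤ N)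
    (h2 : NS T ≤ N) (he : e ⊆ S ∩ T) : NS e ^ 2 * NS (S \ T ∪ T \ S) ≤ N ^ 2 := by
  have hI : PSet (S ∩ T) := hS.mono Finset.inter_subset_left
  have e1 : NS S = NS (S \ T) * NS (S ∩ T) := by
    rw [← NS_union (Finset.disjoint_sdiff_inter S T), Finset.sdiff_union_inter]
  have e2 : NS T = NS (T \ S) * NS (S ∩ T) := by
    rw [Finset.inter_comm, ← NS_union (Finset.disjoint_sdiff_inter T S), Finset.sdiff_union_inter]
  have e3 : NS (S \ T ∪ T \ S) = NS (S \ T) * NS (T \ S) := NS_union disjoint_sdiff_sdiff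
  have e4 : NS e ≤ NS (S ∩ T) := hI.NS_mono he
  have e5 : 0 ≤ NS e := zero_le_one.trans (hI.mono he).one_le_NS
  have e6 : 0 ≤ NS (S \ T ∪ T \ S) := zero_le_one.trans
    ((hS.mono Finset.sdiff_subset).union (hT.mono Finset.sdiff_subset)).one_le_NS
  have e7 : 0 ≤ NS T := zero_le_one.trans hT.one_le_NS
  have e8 : 0 ≤ NS S := zero_le_one.trans hS.one_le_NS
  calc NS e ^ 2 * NS (S \ T ∪ T \ S) ≤ NS (S ∩ T) ^ 2 * NS (S \ T ∪ T \ S) :=
        mul_le_mul_of_nonneg_right (pow_le_pow_left₀ e5 e4 2) e6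
    _ = NS S * NS T := by rw [e3, e1, e2]; ring
    _ ≤ N * N := mul_le_mul h1 h2 e7 (e8.trans h1)
    _ = N ^ 2 := (sq N).symm

theorem coreb_final {E n M W D Ou L P A C₁ C₂ C₄ : ℝ} (hn : 0 ≤ n) (hW : 1 ≤ W) (hD : 1 ≤ D)
    (hM : 1 ≤ M) (hO : M ≤ Ou) (hL0 : 0 ≤ L) (hL : L ≤ A * W) (hP : P ≤ W ^ 2)
    (hA : 0 ≤ A) (h1 : 0 ≤ C₁) (h2 : 0 ≤ C₂)
    (h : E ≤ M * n + C₁ * P * L * (C₄ * W) ^ 5 * D * Ou * (C₄ * W * n + C₄ * W * n) +
      C₂ * W * n) :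
    E ≤ (1 + C₂ + 2 * C₁ * A * C₄ ^ 6) * W ^ 10 * D * Ou * n := by
  have hW0 : 0 ≤ W := zero_le_one.trans hW
  have hO1 : 1 ≤ Ou := hM.trans hO
  have hD0 : 0 ≤ D := zero_le_one.trans hD
  have hO0 : 0 ≤ Ou := zero_le_one.trans hO1
  have w1 : 1 ≤ W ^ 10 := one_le_pow₀ hW
  have w2 : W ≤ W ^ 10 := le_self_pow₀ hW (by norm_num)
  have w3 : W ^ 9 ≤ W ^ 10 := pow_le_pow_right₀ hW (by norm_num)
  have a1 : M * n ≤ W ^ 10 * D * Ou * n := by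
    refine mul_le_mul_of_nonneg_right (hO.trans ?_) hn
    exact le_mul_of_one_le_left hO0 (one_le_mul_of_one_le_of_one_le w1 hD)
  have a2 : C₂ * W * n ≤ C₂ * (W ^ 10 * D * Ou) * n := by
    refine mul_le_mul_of_nonneg_right (mul_le_mul_of_nonneg_left (w2.trans ?_) h2) hn
    rw [mul_assoc]
    exact le_mul_of_one_le_right (zero_le_one.trans w1) (one_le_mul_of_one_le_of_one_le hD hO1)
  have a3 : P * L * W ^ 6 ≤ A * W ^ 10 := by
    calc P * L * W ^ 6 ≤ W ^ 2 * (A * W) * W ^ 6 :=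
          mul_le_mul_of_nonneg_right (mul_le_mul hP hL hL0 (sq_nonneg _)) (pow_nonneg hW0 _)
      _ = A * W ^ 9 := by ring
      _ ≤ A * W ^ 10 := mul_le_mul_of_nonneg_left w3 hA
  have a4 : 0 ≤ 2 * C₁ * C₄ ^ 6 * D * Ou * n := by positivity
  have a5 := mul_le_mul_of_nonneg_left a3 a4
  calc E ≤ _ := h
    _ = M * n + 2 * C₁ * C₄ ^ 6 * D * Ou * n * (P * L * W ^ 6) + C₂ * W * n := by ring
    _ ≤ W ^ 10 * D * Ou * n + 2 * C₁ * C₄ ^ 6 * D * Ou * n * (A * W ^ 10) +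
        C₂ * (W ^ 10 * D * Ou) * n := add_le_add (add_le_add a1 a5) a2
    _ = _ := by ring

/-- `energy_eq`, `TK_eq` (`exists_allSq`); the three parts: `diag_bound` (`norm_Zer_le`), `triv_bound`
(`norm_Tl_le`: `NS e ^ 2 * NS (S \ T ∪ T \ S) ≤ NS S * NS T ≤ N²`, at most `d` subsets `e`, `card_cols`),
`regroup` + `delta_bound` + `sum_nsq_sub`; `d = C N^(ε/10)` (`two_pow_card`), `σ = min (ε/10) (1/4)`,
`log Z ≤ Z^δ/δ` (`Real.log_le_rpow_div`). -/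
theorem core (ε : ℝ) (hε : 0 < ε) : ∃ C₀ : ℝ, 0 < C₀ ∧
    ∀ (Z M N K D ξ : ℝ) (C : Finset (Finset O)) (a : Finset O → ℂ),
      1 ≤ M → M ≤ Z → 1 ≤ N → N ≤ Z → 0 < K → K ≤ Z → 1 ≤ D → 1 / 2 ≤ ξ → ξ ≤ 2 → Hyp K N D ξ →
      LL ε N * N ^ 2 ≤ K * M → Cols N C → (∀ S ∈ C, N ≤ 2 * NS S) → OneCl C →
      ∑' k : O, (if Big K k then gw M k * ‖As C a k‖ ^ 2 else 0) ≤
        C₀ * Z ^ ε * D * Out M N K ξ * nsq C a := by
  have hδ : 0 < ε / 10 := by positivity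
  obtain ⟨C₁, hC₁, H₁⟩ := delta_bound (σ := min (ε / 10) (1 / 4)) (lt_min hδ (by norm_num))
    ((min_le_right _ _).trans_lt (by norm_num))
  obtain ⟨C₂, hC₂, H₂⟩ := norm_Tl_le hε
  obtain ⟨C₃, hC₃, H₃⟩ := card_cols
  obtain ⟨C₄, hC₄, H₄⟩ := two_pow_card (ε / 10) hδ
  have hC₄0 : 0 < C₄ := one_pos.trans_le hC₄
  refine ⟨1 + C₄ * C₂ * C₃ + 2 * C₁ * (1 + 1 / (ε / 10)) * C₄ ^ 6, by positivity, ?_⟩
  intro Z M N K D ξ C a hM hMZ hN hNZ hK hKZ hD hξ hξ' hH hKM hC hC2 hC3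
  obtain ⟨B, hB⟩ := exists_allSq K
  have hZ : 1 ≤ Z := hM.trans hMZ
  have hZ0 : 0 ≤ Z := zero_le_one.trans hZ
  have hM0 : 0 < M := one_pos.trans_le hM
  have hN0 : 0 < N := one_pos.trans_le hN
  obtain ⟨W, hW⟩ : ∃ W, W = Z ^ (ε / 10) := ⟨_, rfl⟩
  have hW1 : 1 ≤ W := hW ▸ Real.one_le_rpow hZ hδ.le
  have hW0 : 0 ≤ W := zero_le_one.trans hW1
  have hZε : Z ^ ε = W ^ 10 := by
    rw [hW, ← Real.rpow_natCast, ← Real.rpow_mul hZ0]
    congr 1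
    push_cast
    ring
  have hP : Z ^ (2 * min (ε / 10) (1 / 4)) ≤ W ^ 2 := by
    rw [hW, ← Real.rpow_natCast, ← Real.rpow_mul hZ0]
    refine Real.rpow_le_rpow_of_exponent_le hZ ?_
    have := min_le_left (ε / 10) (1 / 4)
    push_cast
    linarith
  have hL : 1 + Real.log Z ≤ (1 + 1 / (ε / 10)) * W := by
    have := Real.log_le_rpow_div hZ0 hδ
    rw [← hW] at this
    rw [add_mul, one_mul, one_div, inv_mul_eq_div]
    exact add_le_add hW1 this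
  have hL0 : 0 ≤ 1 + Real.log Z := add_nonneg zero_le_one (Real.log_nonneg hZ)
  have hd : ∀ S ∈ C, (2 : ℝ) ^ S.card ≤ C₄ * W := fun S hS => by
    refine (H₄ S (hC S hS).1).trans (mul_le_mul_of_nonneg_left ?_ hC₄0.le)
    rw [hW]
    exact Real.rpow_le_rpow (zero_le_one.trans (hC S hS).1.one_le_NS) ((hC S hS).2.trans hNZ) hδ.le
  have hd1 : 1 ≤ C₄ * W := one_le_mul_of_one_le_of_one_le hC₄ hW1
  have hO : M ≤ Out M N K ξ := by
    have h1 : 0 ≤ Real.sqrt M * K ^ (ξ - 1 / 2) :=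
      mul_nonneg (Real.sqrt_nonneg _) (Real.rpow_nonneg hK.le _)
    have h2 : 0 ≤ K ^ ξ := Real.rpow_nonneg hK.le _
    unfold Out
    linarith
  obtain ⟨F, hF⟩ : ∃ F : Finset O → Finset O → ℂ, F = fun Δ Q => -((1 : ℂ) * PErr M B Δ Q) +
    ∑ e ∈ Δ.powerset, (-1) ^ e.card * ((1 : ℂ) * DErr M B e Q) := ⟨_, rfl⟩
  have hE := energy_eq (K := K) hM0 hC a
  have hsplit : ∑ S ∈ C, ∑ T ∈ C, a S * conj (a T) * TK M K (S ∩ T) (S \ T ∪ T \ S) =
      ∑ S ∈ C, ∑ T ∈ C, a S * conj (a T) * Zer M (S ∩ T) (S \ T ∪ T \ S) +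
      ∑ S ∈ C, ∑ T ∈ C, a S * conj (a T) * F (S ∩ T) (S \ T ∪ T \ S) +
      ∑ S ∈ C, ∑ T ∈ C, a S * conj (a T) *
        ∑ e ∈ (S ∩ T).powerset, (-1) ^ e.card * Tl M K e (S \ T ∪ T \ S) := by
    simp only [← Finset.sum_add_distrib]
    refine Finset.sum_congr rfl fun S hS => Finset.sum_congr rfl fun T hT => ?_
    rw [TK_eq ((hC S hS).1.mono Finset.inter_subset_left)
      (((hC S hS).1.mono Finset.sdiff_subset).union ((hC T hT).1.mono Finset.sdiff_subset))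
      (gd_of (hC S hS).1 (hC T hT).1 (hC3 S hS T hT))
      (Finset.disjoint_union_left.2 ⟨Finset.disjoint_sdiff_inter S T,
        Finset.inter_comm T S ▸ Finset.disjoint_sdiff_inter T S⟩) hM0 hB, hF]
    simp only [mul_add, Finset.sum_add_distrib]
    ring
  have p1 := diag_bound (C := C) a (M := M) (fun S T => Zer M (S ∩ T) (S \ T ∪ T \ S))
    fun S hS T _ => norm_Zer_le hM ((hC S hS).1.mono Finset.inter_subset_left) _
  have p3 := triv_bound (C := C) a (A := C₄ * W * (C₂ / N)) (by positivity)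
    (fun S T => ∑ e ∈ (S ∩ T).powerset, (-1) ^ e.card * Tl M K e (S \ T ∪ T \ S))
    fun S hS T hT => by
      refine (norm_sum_le_of_le (n := fun _ => C₂ / N) _ fun e he => ?_).trans ?_
      · have he' := Finset.mem_powerset.1 he
        rw [norm_mul, norm_pow, norm_neg, norm_one, one_pow, one_mul]
        exact H₂ M N K e _ hM0 hN hK (((hC S hS).1.mono Finset.inter_subset_left).mono he')
          (((hC S hS).1.mono Finset.sdiff_subset).union ((hC T hT).1.mono Finset.sdiff_subset))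
          (coreb_NS (hC S hS).1 (hC T hT).1 (hC S hS).2 (hC T hT).2 he') hKM
      · rw [Finset.sum_const, Finset.card_powerset, nsmul_eq_mul]
        refine mul_le_mul_of_nonneg_right (le_trans ?_ (hd S hS)) (by positivity)
        push_cast
        exact pow_le_pow_right₀ one_le_two (Finset.card_le_card Finset.inter_subset_left)
  have hn := nsq_nonneg C a
  have p3' : C₄ * W * (C₂ / N) * C.card * nsq C a ≤ C₄ * C₂ * C₃ * W * nsq C a := by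
    refine mul_le_mul_of_nonneg_right ?_ hn
    calc C₄ * W * (C₂ / N) * C.card ≤ C₄ * W * (C₂ / N) * (C₃ * N) :=
          mul_le_mul_of_nonneg_left (H₃ N C hN0.le hC) (by positivity)
      _ = _ := by field_simp
  have p2 : ‖∑ S ∈ C, ∑ T ∈ C, a S * conj (a T) * F (S ∩ T) (S \ T ∪ T \ S)‖ ≤
      C₁ * Z ^ (2 * min (ε / 10) (1 / 4)) * (1 + Real.log Z) * (C₄ * W) ^ 5 * D * Out M N K ξ *
        (C₄ * W * nsq C a + C₄ * W * nsq C a) := by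
    rw [regroup C a (fun T => conj (a T)) F, hF]
    refine (norm_sum_le_of_le _ fun Δ _ => H₁ Z M N K D ξ (C₄ * W) B Δ C _ _ hM hMZ hN hNZ hK hKZ
      (zero_le_one.trans hD) hξ hξ' hH (fun b hb => (hB b).1 hb) hC hd1
      fun S hS => ⟨hd S hS, hC2 S hS⟩).trans ?_
    rw [← Finset.mul_sum, Finset.sum_add_distrib]
    refine mul_le_mul_of_nonneg_left (add_le_add (sum_nsq_sub hd a) ?_) ?_
    · have := sum_nsq_sub hd a
      simpa only [nsq, RCLike.norm_conj] using this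
    · have h1 : 0 ≤ Z ^ (2 * min (ε / 10) (1 / 4)) := Real.rpow_nonneg hZ0 _
      have h2 : 0 ≤ D := zero_le_one.trans hD
      have h3 : 0 ≤ Out M N K ξ := hM0.le.trans hO
      generalize Z ^ (2 * min (ε / 10) (1 / 4)) = P at h1
      generalize 1 + Real.log Z = L at hL0
      positivity
  rw [hZε]
  refine coreb_final hn hW1 hD hM hO hL0 hL hP (by positivity) hC₁.le
    (by positivity) ?_
  refine (Real.le_norm_self _).trans ?_
  rw [← Complex.norm_real, hE, hsplit]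
  exact (norm_add₃_le).trans (add_le_add (add_le_add p1 p2) (p3.trans p3'))

end Crest.Agent.R27.E
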