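import Mathlib

/-!
Row 27, block E (quadratic large sieve, owner helper57): port of `R17/E` to an abstract monoid of ideals `O`
(`class ED`).  Columns are finite sets `S` of primes (`n = ∏ S`), `ch S k = (k / n)_2`; rows `k = b v²`.
For two columns of the same class the theta identity holds with root number one (`ED.poi`).
-/

set_option autoImplicit false

namespace Crest.Agent.R27.E

open scoped Classical ComplexConjugate

/-- the data: `O` is the monoid of ideals (with `0`) -/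
class ED where
  O : Type
  [sr : CommSemiring O]
  [dom : IsDomain O]
  [ufm : UniqueFactorizationMonoid O]
  nm : O → ℝ
  qd : O → O → ℂ
  V : ℝ → ℝ
  kp : ℝ
  ι : Type
  fin : Finite ι
  cl : O → ι
  unit_eq : ∀ u : O, IsUnit u → u = 1
  nm_mul : ∀ a b, nm (a * b) = nm a * nm b
  nm_one : nm 1 = 1
  nm_zero : nm 0 = 0
  one_le_nm : ∀ a, a ≠ 0 → 1 ≤ nm a
  two_le : ∀ p, Prime p → 2 ≤ nm p
  finite_nm : ∀ X : ℝ, {n : O | nm n ≤ X}.Finite
  card_le : ∃ C : ℝ, 0 < C ∧ ∀ (X : ℝ) (B : Finset O), 0 ≤ X →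
    (∀ b ∈ B, b ≠ 0 ∧ nm b ≤ X) → (B.card : ℝ) ≤ C * X
  qd_mul_left : ∀ u v n, qd (u * v) n = qd u n * qd v n
  qd_mul_right : ∀ u m n, qd u (m * n) = qd u m * qd u n
  qd_one_right : ∀ u, qd u 1 = 1
  qd_prime : ∀ p u, Prime p → (p ∣ u ∧ qd u p = 0) ∨ (¬ p ∣ u ∧ (qd u p = 1 ∨ qd u p = -1))
  recip : ∃ η : ι → O → ℂ, (∀ x b, ‖η x b‖ ≤ 1) ∧
    ∀ a b, Squarefree a → Squarefree b → qd a b = η (cl a) b * qd b a
  V_nonneg : ∀ y, 0 < y → 0 ≤ V y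
  V_low : ∃ c, 0 < c ∧ ∀ y, 0 < y → y ≤ 1 → c ≤ V y
  V_le : ∀ σ : ℝ, 0 < σ → ∃ C, ∀ y : ℝ, 0 < y → V y ≤ C * y ^ (-σ)
  poi : ∀ a b d : O, Squarefree (a * b) → Squarefree (a * d) → Squarefree (b * d) → cl (a * d) = cl (b * d) →
    ∀ M : ℝ, 0 < M → ∑' k : O, ((if k = 0 then 1 else V (nm k / M) : ℝ) : ℂ) * qd k (a * b) =
      ((M / Real.sqrt (nm (a * b)) : ℝ) : ℂ) *
        ∑' h : O, ((if h = 0 then 1 else V (nm h / (nm (a * b) / M)) : ℝ) : ℂ) * qd h (a * b)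
  mel : ∀ σ : ℝ, 0 < σ → σ < 1 / 2 → ∃ ρ : ℝ → ℂ, MeasureTheory.Integrable ρ ∧ ∀ Y : ℝ, 0 < Y →
    (((∑' v : O, if v = 0 then 0 else V (nm v ^ 2 / Y)) - kp * Real.sqrt Y : ℝ) : ℂ) =
      ∫ t : ℝ, (Y : ℂ) ^ ((σ : ℂ) + t * Complex.I) * ρ t

attribute [instance] ED.sr ED.dom ED.ufm

export ED (O nm qd V kp cl)

variable [ED]

/-- the row weight -/
noncomputable def gw (K : ℝ) (k : O) : ℝ := if k = 0 then 1 else V (nm k / K)

/-- squarefree of norm at most `X` (same shape as `R17.Sq`) -/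
def Sq (X : ℝ) (n : O) : Prop := True ∧ Squarefree n ∧ True ∧ nm n ≤ X

/-- a prime -/
def IsP (p : O) : Prop := Prime p ∧ True

/-- a set of primes -/
def PSet (S : Finset O) : Prop := ∀ p ∈ S, IsP p

/-- the product of a set of primes -/
noncomputable def pr (S : Finset O) : O := ∏ p ∈ S, p

/-- its norm -/
noncomputable def NS (S : Finset O) : ℝ := ∏ p ∈ S, nm p

/-- its quadratic character -/
noncomputable def ch (S : Finset O) (k : O) : ℂ := ∏ p ∈ S, qd k p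

/-- `φ(n) / N(n)` -/
noncomputable def Ph (S : Finset O) : ℝ := ∏ p ∈ S, (1 - 1 / nm p)

/-- `k` is prime to every element of `S` -/
def cop (S : Finset O) (k : O) : Prop := ∀ p ∈ S, ¬ p ∣ k

/-- every element of `S` divides `k` -/
def dv (S : Finset O) (k : O) : Prop := ∀ p ∈ S, p ∣ k

/-- a family of columns of norm at most `N` -/
def Cols (N : ℝ) (C : Finset (Finset O)) : Prop := ∀ S ∈ C, PSet S ∧ NS S ≤ N

/-- squarefree rows of norm at most `K` -/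
def Rows (K : ℝ) (B : Finset O) : Prop := ∀ b ∈ B, Squarefree b ∧ nm b ≤ K

/-- the column sum at the row `k` -/
noncomputable def As (C : Finset (Finset O)) (a : Finset O → ℂ) (k : O) : ℂ :=
  ∑ S ∈ C, a S * ch S k

/-- squared `ℓ²` norm -/
noncomputable def nsq {ι : Type} (C : Finset ι) (a : ι → ℂ) : ℝ := ∑ S ∈ C, ‖a S‖ ^ 2

/-- weighted large sieve bound for the rows `B` -/
def RowW (N : ℝ) (B : Finset O) (w : O → ℝ) (Bd : ℝ) : Prop :=
  ∀ (C : Finset (Finset O)) (a : Finset O → ℂ), Cols N C →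
    ∑ b ∈ B, w b * ‖As C a b‖ ^ 2 ≤ Bd * nsq C a

/-- large sieve bound: squarefree rows up to `K`, columns up to `N` -/
def RowB (K N Bd : ℝ) : Prop :=
  ∀ (B : Finset O) (C : Finset (Finset O)) (a : Finset O → ℂ), Rows K B → Cols N C →
    ∑ b ∈ B, ‖As C a b‖ ^ 2 ≤ Bd * nsq C a

/-- the hypothesis of the recursion step -/
def Hyp (K N D ξ : ℝ) : Prop :=
  ∀ K₀ N₀ : ℝ, 0 < K₀ → K₀ ≤ 2 * K → 1 ≤ N₀ → N₀ ≤ N → RowB K₀ N₀ (D * (K₀ ^ ξ + N₀))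

/-- `B(K,N) ≲ K + N^ξ` -/
def HA (ξ : ℝ) : Prop :=
  ∀ ε : ℝ, 0 < ε → ∃ C : ℝ, 0 < C ∧ ∀ K N : ℝ, 1 ≤ K → 1 ≤ N →
    RowB K N (C * (K * N) ^ ε * (K + N ^ ξ))

/-- `B(K,N) ≲ K^ξ + N` -/
def HB (ξ : ℝ) : Prop :=
  ∀ ε : ℝ, 0 < ε → ∃ C : ℝ, 0 < C ∧ ∀ K N : ℝ, 1 ≤ K → 1 ≤ N →
    RowB K N (C * (K * N) ^ ε * (K ^ ξ + N))

/-- the same bound for elements: rows are numerators -/
def SqB (K N Bd : ℝ) : Prop :=
  ∀ (A B : Finset O) (a : O → ℂ), (∀ k ∈ A, Sq K k) → (∀ l ∈ B, Sq N l) →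
    ∑ k ∈ A, ‖∑ l ∈ B, a l * qd k l‖ ^ 2 ≤ Bd * nsq B a

/-- the transposed bound: rows are denominators (up to `N`), columns numerators (up to `K`) -/
def SqT (K N Bd : ℝ) : Prop :=
  ∀ (A B : Finset O) (a : O → ℂ), (∀ k ∈ A, Sq K k) → (∀ l ∈ B, Sq N l) →
    ∑ l ∈ B, ‖∑ k ∈ A, a k * qd k l‖ ^ 2 ≤ Bd * nsq A a

/-- `∑_{v ≠ 0} V (N(v)² / Y)` -/
noncomputable def Th (Y : ℝ) : ℝ :=
  ∑' v : O, if v = 0 then 0 else V (nm v ^ 2 / Y)

/-- the same sum over `v` prime to `S` -/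
noncomputable def ThS (S : Finset O) (Y : ℝ) : ℝ :=
  ∑' v : O, if v ≠ 0 ∧ cop S v then V (nm v ^ 2 / Y) else 0

/-- remainder -/
noncomputable def Rm (Y : ℝ) : ℝ := Th Y - kp * Real.sqrt Y

/-- remainder of `ThS` -/
noncomputable def Er (S : Finset O) (Y : ℝ) : ℝ :=
  ∑ d ∈ S.powerset, (-1) ^ d.card * Rm (Y / NS d ^ 2)

/-- non-zero rows whose squarefree kernel has norm `> K` -/
def Big (K : ℝ) (k : O) : Prop := k ≠ 0 ∧ ¬ ∃ b v : O, Squarefree b ∧ nm b ≤ K ∧ k = b * v ^ 2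

/-- `B` is the set of all squarefree elements of norm at most `K` -/
def AllSq (K : ℝ) (B : Finset O) : Prop := ∀ b, b ∈ B ↔ Squarefree b ∧ nm b ≤ K

/-- the kernel of the energy over the big rows (`Δ` = gcd of the two columns) -/
noncomputable def TK (M K : ℝ) (Δ Q : Finset O) : ℂ :=
  ∑' k : O, if Big K k ∧ cop Δ k then (gw M k : ℂ) * ch Q k else 0

/-- the terms `k = 0`, `h = 0` -/
noncomputable def Zer (M : ℝ) (Δ Q : Finset O) : ℂ :=
  if Q = ∅ then ((M * Ph Δ - (if Δ = ∅ then 1 else 0) : ℝ) : ℂ) else 0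

/-- primal remainder -/
noncomputable def PErr (M : ℝ) (B Δ Q : Finset O) : ℂ :=
  ∑ b ∈ B, (if cop Δ b then 1 else 0) * ch Q b * (Er (Q ∪ Δ) (M / nm b) : ℂ)

/-- dual remainder at the mask divisor `e` -/
noncomputable def DErr (M : ℝ) (B e Q : Finset O) : ℂ :=
  ((M / (NS e * Real.sqrt (NS Q)) : ℝ) : ℂ) *
    ∑ b ∈ B, ch Q b * (Er Q (NS (e.filter (· ∣ b)) ^ 2 * NS Q / (M * nm b)) : ℂ)

/-- dual tail at the mask divisor `e` -/
noncomputable def Tl (M K : ℝ) (e Q : Finset O) : ℂ :=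
  ((M / (NS e * Real.sqrt (NS Q)) : ℝ) : ℂ) *
    ∑' h : O, if Big K h ∧ dv e h then (gw (NS e ^ 2 * NS Q / M) h : ℂ) * ch Q h else 0

/-- bilinear form over disjoint pairs of columns -/
noncomputable def Bi (C : Finset (Finset O)) (a₁ a₂ : Finset O → ℂ) (F : Finset O → ℂ) : ℂ :=
  ∑ m₁ ∈ C, ∑ m₂ ∈ C, if Disjoint m₁ m₂ then a₁ m₁ * a₂ m₂ * F (m₁ ∪ m₂) else 0

/-- the columns containing `Δ`, with `Δ` removed -/
noncomputable def sub (C : Finset (Finset O)) (Δ : Finset O) : Finset (Finset O) :=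
  (C.filter (Δ ⊆ ·)).image (· \ Δ)

/-- the size of the new bound -/
noncomputable def Out (M N K ξ : ℝ) : ℝ := M + N + Real.sqrt M * K ^ (ξ - 1 / 2) + K ^ ξ

/-- the length of the tail -/
noncomputable def LL (ε N : ℝ) : ℝ := N ^ min ε 1

/-- all columns have the same class -/
def OneCl (C : Finset (Finset O)) : Prop := ∀ S ∈ C, ∀ T ∈ C, cl (pr S) = cl (pr T)

/-- the theta identity holds for `Q` -/
def Gd (Q : Finset O) : Prop := ∀ M : ℝ, 0 < M → ∑' k : O, (gw M k : ℂ) * ch Q k =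
  ((M / Real.sqrt (NS Q) : ℝ) : ℂ) * ∑' h : O, (gw (NS Q / M) h : ℂ) * ch Q h

omit [ED] in
theorem nsq_nonneg {ι : Type} (C : Finset ι) (a : ι → ℂ) : 0 ≤ nsq C a :=
  Finset.sum_nonneg fun _ _ => by positivity

end Crest.Agent.R27.E
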