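import Crest.Agent.R27.E.Cols

/-!
Row 27, block E: duality and reciprocity.
-/

set_option autoImplicit false

namespace Crest.Agent.R27.E

open scoped Classical ComplexConjugate

variable [ED]

/-- operator-norm duality for a finite matrix: with `c l = ∑_k a k U k l`,
`∑ ‖c l‖² = ∑_k a k ∑_l conj (c l) U k l ≤ √(nsq a) √(Bd ∑ ‖c l‖²)` -/
theorem op_dual {ι κ : Type} (A : Finset ι) (B : Finset κ) (U : ι → κ → ℂ) {Bd : ℝ} (hBd : 0 ≤ Bd)
    (h : ∀ a : κ → ℂ, ∑ k ∈ A, ‖∑ l ∈ B, a l * U k l‖ ^ 2 ≤ Bd * nsq B a) (a : ι → ℂ) :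
    ∑ l ∈ B, ‖∑ k ∈ A, a k * U k l‖ ^ 2 ≤ Bd * nsq A a := by
  obtain ⟨c, hc⟩ : ∃ c : κ → ℂ, ∀ l, c l = ∑ k ∈ A, a k * U k l := ⟨_, fun _ => rfl⟩
  simp only [← hc]
  have h1 := h fun l => conj (c l)
  simp only [nsq, Complex.norm_conj] at h1 ⊢
  have h2 : ((∑ l ∈ B, ‖c l‖ ^ 2 : ℝ) : ℂ) = ∑ k ∈ A, a k * ∑ l ∈ B, conj (c l) * U k l := by
    simp only [Finset.mul_sum, Complex.ofReal_sum, Complex.ofReal_pow]
    rw [Finset.sum_comm]
    refine Finset.sum_congr rfl fun l _ => ?_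
    rw [← Complex.conj_mul']
    nth_rewrite 2 [hc]
    rw [Finset.mul_sum]
    exact Finset.sum_congr rfl fun k _ => by ring
  have h0 : 0 ≤ ∑ l ∈ B, ‖c l‖ ^ 2 := Finset.sum_nonneg fun _ _ => by positivity
  have h3 : ∑ l ∈ B, ‖c l‖ ^ 2 ≤ ∑ k ∈ A, ‖a k‖ * ‖∑ l ∈ B, conj (c l) * U k l‖ := by
    rw [← Complex.norm_of_nonneg h0, h2]
    exact (norm_sum_le _ _).trans (Finset.sum_le_sum fun k _ => (norm_mul _ _).le)
  have h4 := (pow_le_pow_left₀ h0 h3 2).trans (Finset.sum_mul_sq_le_sq_mul_sq A _ _)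
  have h5 : 0 ≤ ∑ k ∈ A, ‖a k‖ ^ 2 := Finset.sum_nonneg fun _ _ => by positivity
  have h6 := h4.trans (mul_le_mul_of_nonneg_left h1 h5)
  by_contra h7
  have h8 := not_le.1 h7
  nlinarith [mul_nonneg hBd h5]

/-- choose `S l` with `pr (S l) = l` (`exists_pset`), columns `B.image S`, coefficients `a ∘ pr` -/
theorem RowB.sqB {K N Bd : ℝ} (h : RowB K N Bd) : SqB K N Bd := by
  intro A B a hA hB
  choose! S hS e using fun l (hl : l ∈ B) => exists_pset (hB l hl)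
  have hi : ∀ x ∈ B, ∀ y ∈ B, S x = S y → x = y := fun x hx y hy h => by
    rw [← e x hx, ← e y hy, h]
  have := h A (B.image S) (fun T => a (pr T)) (fun k hk => ⟨(hA k hk).2.1, (hA k hk).2.2.2⟩)
    (Finset.forall_mem_image.2 fun l hl => ⟨hS l hl, by rw [← nm_pr, e l hl]; exact (hB l hl).2.2.2⟩)
  simp only [As, nsq, Finset.sum_image hi, ← qd_pr] at this
  simp +contextual only [e] at this
  exact this

theorem SqB.sqT {K N Bd : ℝ} (h : SqB K N Bd) (hBd : 0 ≤ Bd) : SqT K N Bd := by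
  exact fun A B a hA hB => op_dual A B (fun k l => qd k l) hBd (fun a' => h A B a' hA hB) a

theorem dual_nsq {ι : Type} {B : Finset ι} {a u : ι → ℂ} (h : ∀ l ∈ B, ‖u l‖ ≤ 1) :
    nsq B (fun l => a l * u l) ≤ nsq B a :=
  Finset.sum_le_sum fun l hl => pow_le_pow_left₀ (norm_nonneg _)
    ((norm_mul _ _).trans_le (mul_le_of_le_one_right (norm_nonneg _) (h l hl))) 2

theorem sqB_of_sqT : ∃ C : ℝ, 0 < C ∧ ∀ K N Bd : ℝ, 0 ≤ Bd → SqT K N Bd → SqB N K (C * Bd) := by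
  obtain ⟨η, h1, h3⟩ := ED.recip
  have := ED.fin
  have := Fintype.ofFinite ED.ι
  have : Nonempty ED.ι := ⟨cl 1⟩
  refine ⟨Fintype.card ED.ι, by exact_mod_cast Fintype.card_pos, fun K N Bd hBd h A B a hA hB => ?_⟩
  rw [← Finset.sum_fiberwise A cl, mul_assoc, ← nsmul_eq_mul, ← Finset.card_univ]
  refine Finset.sum_le_card_nsmul _ _ _ fun c _ => ?_
  refine le_trans (le_of_eq (Finset.sum_congr rfl fun k hk => ?_))
    ((h B _ (fun l => a l * η c l) hB fun k hk => hA k (Finset.mem_filter.1 hk).1).trans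
      (mul_le_mul_of_nonneg_left (dual_nsq fun l _ => h1 _ l) hBd))
  obtain ⟨hk, e⟩ := Finset.mem_filter.1 hk
  rw [Finset.sum_congr rfl fun l hl => ?_]
  rw [h3 k l (hA k hk).2.1 (hB l hl).2.1, mul_assoc, e]

theorem dual_idx {K N Bd : ℝ} (h : SqB K N Bd) {ι κ : Type} (A : Finset ι) (B : Finset κ)
    (f : ι → O) (g : κ → O) (hf : ∀ x ∈ A, ∀ y ∈ A, f x = f y → x = y)
    (hg : ∀ x ∈ B, ∀ y ∈ B, g x = g y → x = y) (hA : ∀ k ∈ A, Sq K (f k))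
    (hB : ∀ l ∈ B, Sq N (g l)) (a : κ → ℂ) :
    ∑ k ∈ A, ‖∑ l ∈ B, a l * qd (f k) (g l)‖ ^ 2 ≤ Bd * nsq B a := by
  obtain ⟨a', e⟩ : ∃ a' : O → ℂ, ∀ l ∈ B, a' (g l) = a l :=
    ⟨fun o => if h : ∃ l ∈ B, g l = o then a h.choose else 0, fun l hl => by
      have h1 : ∃ l' ∈ B, g l' = g l := ⟨l, hl, rfl⟩
      beta_reduce
      rw [dif_pos h1, hg _ h1.choose_spec.1 l hl h1.choose_spec.2]⟩
  have := h (A.image f) (B.image g) a' (Finset.forall_mem_image.2 hA) (Finset.forall_mem_image.2 hB)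
  simp only [nsq, Finset.sum_image hf, Finset.sum_image hg] at this
  simp +contextual only [e] at this
  exact this

theorem rowB_of_sqB : ∃ C : ℝ, 0 < C ∧ ∀ K N Bd : ℝ, 0 ≤ Bd → SqB K N Bd → RowB K N (C * Bd) := by
  refine ⟨1, one_pos, fun K N Bd hBd h B C a hB hC => ?_⟩
  have := dual_idx h B C id pr (fun x _ y _ hxy => hxy) (fun S hS T hT => pr_inj (hC S hS).1 (hC T hT).1)
    (fun b hb => ⟨trivial, (hB b hb).1, trivial, (hB b hb).2⟩)
    (fun S hS => ⟨trivial, (hC S hS).1.sq.2.1, trivial, (nm_pr S).le.trans (hC S hS).2⟩) a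
  simpa only [As, qd_pr, one_mul, id] using this

theorem HA.hb {ξ : ℝ} (h : HA ξ) : HB ξ := by
  obtain ⟨C₁, hC₁, h₁⟩ := sqB_of_sqT
  obtain ⟨C₂, hC₂, h₂⟩ := rowB_of_sqB
  intro ε hε
  obtain ⟨C, hC, hh⟩ := h ε hε
  refine ⟨C₂ * (C₁ * C), by positivity, fun K N hK hN => ?_⟩
  have hB : 0 ≤ C * (N * K) ^ ε * (N + K ^ ξ) := by positivity
  have := h₂ _ _ _ (by positivity) (h₁ _ _ _ hB ((hh N K hN hK).sqB.sqT hB))
  convert this using 1
  rw [mul_comm N K]; ring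

end Crest.Agent.R27.E
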