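import Crest.Agent.R27.E.Ari

/-!
Row 27, block E: decomposition of a sum over `O` by the squarefree kernel.
Every `k ≠ 0` has exactly one representation `k = b v²`, `b` squarefree.
-/

set_option autoImplicit false

namespace Crest.Agent.R27.E

open scoped Classical ComplexConjugate

variable [ED]

/-- existence (`exists_sq_mul_squarefree`-type lemma for a UFD, or induction on the norm) -/
theorem exists_ker {k : O} (hk : k ≠ 0) : ∃ b v : O, Squarefree b ∧ k = b * v ^ 2 := by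
  induction k using (wellFounded_dvdNotUnit (α := O)).induction with
  | _ k ih =>
    by_cases hs : Squarefree k
    · exact ⟨k, 1, hs, by simp⟩
    · obtain ⟨x, ⟨c, hc⟩, hx⟩ : ∃ x, x * x ∣ k ∧ ¬ IsUnit x := by
        by_contra h
        exact hs fun x hx => by_contra fun hu => h ⟨x, hx, hu⟩
      have hc0 : c ≠ 0 := by
        rintro rfl
        exact hk (by simpa using hc)
      obtain ⟨b, v, hb, hv⟩ := ih c ⟨hc0, x * x, fun hu => hx (isUnit_of_mul_isUnit_left hu),
        by rw [hc, mul_comm]⟩ hc0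
      exact ⟨b, v * x, hb, by rw [hc, hv]; ring⟩

/-- uniqueness up to a unit (compare multiplicities, or: `v² ∣ b' v'²` forces `v ∣ v'`,
`Squarefree.dvd_of_squarefree_of_mul_dvd_mul_right`-type lemmas) -/
theorem ker_unique {b v b' v' : O} (hb : Squarefree b) (hb' : Squarefree b') (hv : v ≠ 0)
    (h : b * v ^ 2 = b' * v' ^ 2) : Associated v v' := by
  obtain ⟨a, a', g, hr, rfl, rfl⟩ := UniqueFactorizationMonoid.exists_reduced_factors v hv v'
  have hg : g ≠ 0 := left_ne_zero_of_mul hv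
  have h1 : b * a ^ 2 = b' * a' ^ 2 :=
    mul_left_cancel₀ (pow_ne_zero 2 hg) (by rw [← mul_assoc, ← mul_assoc, mul_comm (g ^ 2) b, mul_comm (g ^ 2) b', mul_assoc, mul_assoc, ← mul_pow, ← mul_pow, h])
  have h2 : IsUnit a := hb' a (by
    rw [← sq]
    exact (hr.pow (m := 2) (n := 2)).dvd_of_dvd_mul_right ⟨b, by rw [← h1, mul_comm]⟩)
  have h3 : IsUnit a' := hb a' (by
    rw [← sq]
    exact (hr.symm.pow (m := 2) (n := 2)).dvd_of_dvd_mul_right ⟨b', by rw [h1, mul_comm]⟩)
  exact (associated_mul_unit_left g a h2).trans (associated_mul_unit_right g a' h3)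

theorem Big.lt {K : ℝ} {k : O} (h : Big K k) : K < nm k := by
  obtain ⟨b, v, hb, hk⟩ := exists_ker h.1
  have h1 : K < nm b := not_le.1 fun hK => h.2 ⟨b, v, hb, hK, hk⟩
  have hv : v ≠ 0 := by
    rintro rfl
    exact h.1 (by simpa using hk)
  rw [hk, nm_mul]
  exact h1.trans_le (le_mul_of_one_le_right (nm_nonneg b) (one_le_nm (pow_ne_zero 2 hv)))

theorem big_of_squarefree {K : ℝ} {b : O} (hb : Squarefree b) (h : K < nm b) : Big K b := by
  refine ⟨hb.ne_zero, ?_⟩
  rintro ⟨b', v, -, hK, hk⟩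
  have hv : IsUnit v := hb v ⟨b', by rw [hk]; ring⟩
  rw [hk, nm_mul, nm_unit (hv.pow 2), mul_one] at h
  exact absurd hK (not_le.2 h)

theorem card_rep {K : ℝ} {B : Finset O} (hB : AllSq K B) {k : O} (hk : k ≠ 0) (hs : ¬ Big K k) :
    {x : O × O | x.1 ∈ B ∧ x.2 ≠ 0 ∧ x.1 * x.2 ^ 2 = k}.ncard = 1 := by
  obtain ⟨b, v, hb, hK, rfl⟩ : ∃ b v : O, Squarefree b ∧ nm b ≤ K ∧ k = b * v ^ 2 := by
    by_contra h
    exact hs ⟨hk, h⟩
  have hv : v ≠ 0 := by
    rintro rfl
    exact hk (by simp)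
  refine Set.ncard_eq_one.2 ⟨(b, v), Set.eq_singleton_iff_unique_mem.2 ⟨⟨(hB b).2 ⟨hb, hK⟩, hv, rfl⟩, ?_⟩⟩
  rintro ⟨b', v'⟩ ⟨h1, -, h3⟩
  obtain rfl := assoc_eq (ker_unique hb ((hB b').1 h1).1 hv h3.symm)
  exact Prod.ext (mul_right_cancel₀ (pow_ne_zero 2 hv) h3) rfl

theorem Ker_fib {α β E : Type} [AddCommMonoid E] [TopologicalSpace E] (g : α → β) (p : α → Prop)
    (f : β → E) (k : β) (hfin : {x | p x ∧ g x = k}.Finite) :
    HasSum (fun y : {x // g x = k} => if p y.1 then f (g y.1) else 0)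
      ({x | p x ∧ g x = k}.ncard • f k) := by
  refine (hasSum_subtype_iff_indicator (s := {x | g x = k})
    (f := fun x => if p x then f (g x) else 0)).2 ?_
  have h := hasSum_sum_of_ne_finset_zero (s := hfin.toFinset)
    (f := {x | g x = k}.indicator fun x => if p x then f (g x) else 0) (L := .unconditional α)
    fun x hx => by
      by_cases h1 : g x = k
      · rw [Set.indicator_of_mem (by exact h1), if_neg fun h2 => hx (hfin.mem_toFinset.2 ⟨h2, h1⟩)]
      · exact Set.indicator_of_notMem (by exact h1) _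
  rwa [Finset.sum_congr rfl (g := fun _ => f k) fun x hx => by
    obtain ⟨h1, h2⟩ := hfin.mem_toFinset.1 hx
    rw [Set.indicator_of_mem (by exact h2), if_pos h1, h2], Finset.sum_const,
    ← Set.ncard_eq_toFinset_card _ hfin] at h

theorem Ker_summ {f : O → ℂ} (hf : Summable f) (p : O → Prop) :
    Summable fun k => if p k then f k else 0 :=
  (hf.indicator {k | p k}).congr fun k => by
    by_cases h : p k
    · rw [Set.indicator_of_mem (by exact h), if_pos h]
    · rw [Set.indicator_of_notMem (by exact h), if_neg h]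

theorem Ker_sum {α : Type} (g : α → O) (p : α → Prop) (q : O → Prop) {n : ℕ} (hn : n ≠ 0)
    (h1 : ∀ x, p x → q (g x)) (h2 : ∀ k, q k → {x | p x ∧ g x = k}.ncard = n) {f : O → ℂ}
    (hf : Summable f) :
    HasSum (fun x => if p x then f (g x) else 0) (n * ∑' k, if q k then f k else 0) := by
  have hc : ∀ k, {x | p x ∧ g x = k}.Finite ∧
      {x | p x ∧ g x = k}.ncard = if q k then n else 0 := fun k => by
    by_cases hq : q k
    · rw [if_pos hq]
      exact ⟨Set.finite_of_ncard_ne_zero (by rwa [h2 k hq]), h2 k hq⟩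
    · have : {x | p x ∧ g x = k} = ∅ :=
        Set.eq_empty_of_forall_notMem fun x hx => hq (hx.2 ▸ h1 x hx.1)
      rw [this, if_neg hq]
      simp
  rw [← (Equiv.sigmaFiberEquiv g).hasSum_iff]
  refine HasSum.sigma_of_hasSum ((Ker_summ hf q).hasSum.mul_left (n : ℂ)) (fun k => ?_) ?_
  · have := Ker_fib g p f k (hc k).1
    rw [(hc k).2, show (if q k then n else 0) • f k = n * if q k then f k else 0 by
      split_ifs <;> simp] at this
    exact this
  · refine Summable.of_norm ((summable_sigma_of_nonneg fun _ => norm_nonneg _).2 ?_)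
    have h3 : ∀ k, HasSum (fun y : {x // g x = k} => ‖if p y.1 then f (g y.1) else 0‖)
        ({x | p x ∧ g x = k}.ncard • ‖f k‖) := fun k => by
      have := Ker_fib g p (fun k => ‖f k‖) k (hc k).1
      convert this using 2 with y
      split_ifs <;> simp
    refine ⟨fun k => (h3 k).summable, Summable.of_nonneg_of_le
      (fun k => tsum_nonneg fun _ => norm_nonneg _) (fun k => ?_) (hf.norm.mul_left (n : ℝ))⟩
    refine (h3 k).tsum_eq.trans_le ?_
    rw [(hc k).2, nsmul_eq_mul]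
    refine mul_le_mul_of_nonneg_right ?_ (norm_nonneg _)
    split_ifs <;> simp

/-- For each `b ∈ B`: `∑'_v [v ≠ 0] f (b v²) = ∑'_k n_b(k) f k`, `n_b(k) = #{v ≠ 0 | b v² = k} ≤ 2`
(`HasSum.sigma` with `Equiv.sigmaFiberEquiv`, or split `v` along `v ↦ -v`), and
`∑_{b ∈ B} n_b(k) = 6 · [k ≠ 0 ∧ ¬ Big K k]`. -/
theorem ker_split {K : ℝ} {B : Finset O} (hB : AllSq K B) {f : O → ℂ} (hf : Summable f) :
    ∑' k : O, f k = f 0 + (1 : ℂ) * ∑ b ∈ B, (∑' v : O, if v ≠ 0 then f (b * v ^ 2) else 0) +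
      ∑' k : O, if Big K k then f k else 0 := by
  have h1 := Ker_sum (fun x : O × O => x.1 * x.2 ^ 2) (fun x => x.1 ∈ B ∧ x.2 ≠ 0)
    (fun k => k ≠ 0 ∧ ¬ Big K k) (n := 1) (by norm_num)
    (fun x hx => ⟨mul_ne_zero ((hB _).1 hx.1).1.ne_zero (pow_ne_zero 2 hx.2),
      fun h => h.2 ⟨x.1, x.2, ((hB _).1 hx.1).1, ((hB _).1 hx.1).2, rfl⟩⟩)
    (fun k hk => by simpa only [and_assoc] using card_rep hB hk.1 hk.2) hf
  have h2 := h1.tsum_eq
  rw [h1.summable.tsum_prod, tsum_eq_sum (s := B) fun b hb => by simp [hb]] at h2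
  have h3 : ∑ b ∈ B, (∑' v : O, if v ≠ 0 then f (b * v ^ 2) else 0) = _ :=
    (Finset.sum_congr rfl fun b hb => tsum_congr fun v => by simp [hb]).trans h2
  have h4 := Ker_summ hf (fun k => k ≠ 0 ∧ ¬ Big K k)
  have h5 := Ker_summ hf (Big K)
  have h6 := ((hasSum_ite_eq (0 : O) (f 0)).add h4.hasSum).add h5.hasSum
  rw [h3, ← mul_assoc, show (1 : ℂ) * ((1 : ℕ) : ℂ) = 1 by norm_num, one_mul, ← h6.tsum_eq]
  refine tsum_congr fun k => ?_
  by_cases hk : k = 0
  · have : ¬ Big K 0 := fun h => h.1 rfl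
    simp [hk, this]
  · by_cases hb : Big K k <;> simp [hk, hb]

end Crest.Agent.R27.E
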