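import Crest.Agent.R27.A.Sym
import Crest.Agent.R27.F.Pre

/-!
Row 27, block E: the primary generator of an ideal.
-/

set_option autoImplicit false
set_option linter.unusedSectionVars false

namespace Crest.Agent.R27.E

open Crest.Agent.R27.Ab Crest.Agent.R27.F
open scoped Classical

variable {R : Type} [CommRing R] [IsDomain R] [IsPrincipalIdealRing R] [Abs R]

theorem rep_ex (I : Ideal R) : ∃ n : R, Ideal.span {n} = I ∧ (n = 0 ∨ Prim n) := by
  obtain ⟨a, ha⟩ := (IsPrincipalIdealRing.principal I).principal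
  by_cases h : a = 0
  · exact ⟨a, ha.symm, Or.inl h⟩
  · obtain ⟨n, hn, h1⟩ := Ar.pr_ex a h
    exact ⟨n, (Ideal.span_singleton_eq_span_singleton.2 h1).symm.trans ha.symm, Or.inr hn⟩

/-- the primary generator -/
noncomputable def rep (I : Ideal R) : R := (rep_ex I).choose

theorem span_rep (I : Ideal R) : Ideal.span {rep I} = I := (rep_ex I).choose_spec.1

theorem rep_or (I : Ideal R) : rep I = 0 ∨ Prim (rep I) := (rep_ex I).choose_spec.2

theorem rep_eq_zero {I : Ideal R} : rep I = 0 ↔ I = 0 := by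
  rw [← Ideal.span_singleton_eq_bot, span_rep, Ideal.zero_eq_bot]

theorem rep_zero : rep (0 : Ideal R) = 0 := rep_eq_zero.2 rfl

theorem rep_prim {I : Ideal R} (h : I ≠ 0) : Prim (rep I) := (rep_or I).resolve_left (mt rep_eq_zero.1 h)

theorem rep_span {n : R} (h : n = 0 ∨ Prim n) : rep (Ideal.span {n}) = n := by
  have h1 := Ideal.span_singleton_eq_span_singleton.1 (span_rep (Ideal.span {n}))
  rcases h with rfl | h
  · exact (associated_zero_iff_eq_zero _).1 h1
  · exact Ar.pr_uniq _ _ ((rep_or _).resolve_left (h1.ne_zero_iff.2 (p_ne h))) h h1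

theorem rep_one : rep (1 : Ideal R) = 1 := by
  rw [Ideal.one_eq_top, ← Ideal.span_singleton_one, rep_span (Or.inr p_one)]

theorem rep_mul (I J : Ideal R) : rep (I * J) = rep I * rep J := by
  conv_lhs => rw [← span_rep I, ← span_rep J, Ideal.span_singleton_mul_span_singleton]
  refine rep_span ?_
  rcases rep_or I with h | h
  · exact Or.inl (by rw [h, zero_mul])
  rcases rep_or J with h' | h'
  · exact Or.inl (by rw [h', mul_zero])
  exact Or.inr (p_mul h h')

theorem rep_dvd {I J : Ideal R} : rep I ∣ rep J ↔ I ∣ J := by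
  rw [← Ideal.span_singleton_dvd_span_singleton_iff_dvd, span_rep, span_rep]

theorem rep_prime {I : Ideal R} (h : Prime I) : Prime (rep I) := by
  rw [← Ideal.span_singleton_prime (mt rep_eq_zero.1 h.ne_zero), span_rep]
  exact Ideal.isPrime_of_prime h

theorem rep_sqfree {I : Ideal R} : Squarefree (rep I) ↔ Squarefree I := by
  rw [← Ideal.squarefree_span_singleton, span_rep]

/-- the ideal of a primary element -/
def idl (k : Pr R) : Ideal R := Ideal.span {(k : R)}

theorem rep_idl (k : Pr R) : rep (idl k) = k := rep_span (Or.inr k.2)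

theorem idl_inj : Function.Injective (idl : Pr R → Ideal R) := fun a b h =>
  Subtype.ext (by rw [← rep_idl a, h, rep_idl])

theorem idl_ne (k : Pr R) : idl k ≠ 0 := fun h => p_ne k.2 (by rw [← rep_idl k, h, rep_zero])

theorem idl_range {I : Ideal R} (h : I ≠ 0) : I ∈ Set.range (idl : Pr R → Ideal R) :=
  ⟨⟨rep I, rep_prim h⟩, span_rep I⟩

theorem tsum_idl [∀ I : Ideal R, Decidable (I = 0)] {E : Type} [NormedAddCommGroup E] (f : R → E) :
    ∑' I : Ideal R, (if I = 0 then 0 else f (rep I)) = ∑' k : Pr R, f k := by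
  rw [← idl_inj.tsum_eq fun I hI => idl_range fun h => hI (if_pos h)]
  simp only [if_neg (idl_ne _), rep_idl]

theorem tsum_idl' [∀ I : Ideal R, Decidable (I = 0)] {f : R → ℂ} (hf : Summable fun k : Pr R => f k) (c : ℂ) :
    ∑' I : Ideal R, (if I = 0 then c else f (rep I)) = c + ∑' k : Pr R, f k := by
  have h1 : Summable fun I : Ideal R => if I = 0 then 0 else f (rep I) := by
    rw [← idl_inj.summable_iff fun I hI => if_pos (by_contra fun h => hI (idl_range h))]
    simpa only [Function.comp_def, if_neg (idl_ne _), rep_idl] using hf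
  rw [← tsum_idl, ← tsum_ite_eq (0 : Ideal R) fun _ => c,
    ← (hasSum_ite_eq (0 : Ideal R) c).summable.tsum_add h1]
  refine tsum_congr fun I => ?_
  split_ifs <;> simp

theorem rep_fin (X : ℝ) : {I : Ideal R | Ab.nm (rep I) ≤ X}.Finite := by
  refine (((p_fin (R := R) X).image idl).insert 0).subset fun I hI => ?_
  by_cases h : I = 0
  · exact Or.inl h
  · exact Or.inr ⟨⟨rep I, rep_prim h⟩, hI, span_rep I⟩

theorem rep_inj : Function.Injective (rep : Ideal R → R) := fun I J h => by
  rw [← span_rep I, h, span_rep]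

theorem rep_card : ∃ C : ℝ, 0 < C ∧ ∀ (X : ℝ) (B : Finset (Ideal R)), 0 ≤ X →
    (∀ b ∈ B, b ≠ 0 ∧ Ab.nm (rep b) ≤ X) → (B.card : ℝ) ≤ C * X := by
  obtain ⟨C, hC, H⟩ := p_count (R := R)
  refine ⟨C + 1, by positivity, fun X B hX hB => ?_⟩
  rcases B.eq_empty_or_nonempty with rfl | ⟨b, hb⟩
  · simp only [Finset.card_empty, Nat.cast_zero]
    positivity
  have h1 : 1 ≤ X := (one_le_nm (p_ne (rep_prim (hB b hb).1))).trans (hB b hb).2
  have h2 := H X (B.image rep) h1 fun n hn => by
    obtain ⟨I, hI, rfl⟩ := Finset.mem_image.1 hn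
    exact ⟨rep_prim (hB I hI).1, (hB I hI).2⟩
  rw [Finset.card_image_of_injective _ rep_inj] at h2
  nlinarith

instance countable_Pr : Countable (Pr R) := by
  have h : (Set.univ : Set (Pr R)) = ⋃ N : ℕ, {n : Pr R | Ab.nm (n : R) ≤ N} := by
    refine (Set.eq_univ_of_forall fun n => ?_).symm
    obtain ⟨N, hN⟩ := exists_nat_ge (Ab.nm (n : R))
    exact Set.mem_iUnion.2 ⟨N, hN⟩
  exact Set.countable_univ_iff.1 (h ▸ Set.countable_iUnion fun N => (p_fin (R := R) N).countable)

end Crest.Agent.R27.E
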