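import Crest.Agent.R27.A.All

/-!
Row 27, block E: the root number of the quadratic character modulo `a b`, `cls a = cls b`, is one.
-/

set_option autoImplicit false
set_option linter.unusedSectionVars false

namespace Crest.Agent.R27.E

open Crest.Agent.R27.Ab
open scoped Classical ComplexConjugate

variable {R : Type} [CommRing R] [IsDomain R] [IsPrincipalIdealRing R] [Ar R]

theorem rt_uinv {a b : R} (ha : a ≠ 0) (hb : b ≠ 0) (h : cls a = cls b) :
    UInv fun y => sx y (a * b) ^ 3 := fun u y hu => by
  simp only [sx_mul_left, mul_pow]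
  rw [sx_unit_left hu (mul_ne_zero ha hb), cls_mul ha hb, ← h, hs_mul_right, ← sq, ← pow_mul,
    hs_pow_six, one_mul]

theorem rt_FT {a b : R} (hs : Squarefree (a * b)) (h : cls a = cls b) (k : R) :
    FT (a * b) (fun y => sx y (a * b) ^ 3) k = sx k (a * b) ^ 3 * (Real.sqrt (nm (a * b)) : ℂ) := by
  have ha := left_ne_zero_of_mul hs.ne_zero
  have hb := right_ne_zero_of_mul hs.ne_zero
  have h1 : gam (a * b) = 1 := by
    rw [gam_mul ha hb, ← gam_cls ha hb h, eps, ← h, ← eps, eps_self ha, mul_assoc, ← sq, gam_sq' ha, ← sq,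
      sx_neg_one_sq ha]
  have h2 := gs_three_sqfree hs k
  rwa [gs_three hs, h1, one_mul] at h2

end Crest.Agent.R27.E
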