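import Crest.Agent.R27.E.Main
import Crest.Agent.R27.E.Rep
import Crest.Agent.R27.E.Root
import Crest.Agent.R27.E.AnZ

/-!
Row 27, block E: the instance of `ED` and the final statement `Ab.stE`.
-/

set_option autoImplicit false
set_option linter.unusedSectionVars false

namespace Crest.Agent.R27.E

open Crest.Agent.R27.Ab Crest.Agent.R27.F
open scoped Classical ComplexConjugate

variable {R : Type} [CommRing R] [IsDomain R] [IsPrincipalIdealRing R] [Abs R]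

theorem in_WD : WD (Abs.W R) (Abs.w₀ R) :=
  ⟨Abs.isW.w_pos, Abs.isW.cont, fun y _ => Abs.isW.nonneg y, Abs.isW.lower, Abs.isW.upper, Abs.isW.mel_lower⟩

theorem in_ND : ND fun k : Pr R => Ab.nm (k : R) :=
  ⟨fun k => Ab.one_le_nm (p_ne k.2), fun _ h => p_summable h⟩

theorem in_pois {a b : R} (hs : Squarefree (a * b)) (h : cls a = cls b) :
    Pois (Abs.W R) (Abs.w₀ R) (fun k : Pr R => Ab.nm (k : R)) (fun k => sx (k : R) (a * b) ^ 3)
      (sx 0 (a * b) ^ 3) (Ab.nm (a * b)) := by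
  intro M hM
  have h0 := hs.ne_zero
  have h1 := (Abs.isW (R := R)).poisson (a * b) (fun y => sx y (a * b) ^ 3) M h0 ((per_sx _).comp (· ^ 3))
    (rt_uinv (left_ne_zero_of_mul h0) (right_ne_zero_of_mul h0) h) hM
  simp only [rt_FT hs h, mul_right_comm _ (Real.sqrt (Ab.nm (a * b)) : ℂ), tsum_mul_right] at h1
  rw [h1]
  have h2 : (Real.sqrt (Ab.nm (a * b)) : ℂ) ≠ 0 := Complex.ofReal_ne_zero.2 (Real.sqrt_pos.2 (Ab.nm_pos h0)).ne'
  have h3 : (Ab.nm (a * b) : ℂ) = (Real.sqrt (Ab.nm (a * b)) : ℂ) ^ 2 := by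
    exact_mod_cast (Real.sq_sqrt (Ab.nm_nonneg _)).symm
  generalize ∑' h : Pr R, sx (h : R) (a * b) ^ 3 * (Abs.W R (Ab.nm (h : R) / (Ab.nm (a * b) / M)) : ℂ) = S
  push_cast
  rw [h3]
  field_simp

theorem in_mel : ∃ kp : ℝ, ∀ σ : ℝ, 0 < σ → σ < 1 / 2 → ∃ ρ : ℝ → ℂ, MeasureTheory.Integrable ρ ∧
    ∀ Y : ℝ, 0 < Y → (((∑' k : Pr R, Vw (Abs.W R) (Abs.w₀ R) (Ab.nm (k : R) ^ 2 / Y)) - kp * Real.sqrt Y : ℝ) : ℂ) =
      ∫ t : ℝ, (Y : ℂ) ^ ((σ : ℂ) + t * Complex.I) * ρ t := by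
  refine mel_main in_WD in_ND ?_
  have h := in_pois (R := R) (a := 1) (b := 1) (by simp) rfl
  simpa only [mul_one, sx_unit_right _ isUnit_one, one_pow, Ab.nm_unit isUnit_one] using h

theorem in_norm (u n : R) : ‖sx u n ^ 3‖ ≤ 1 := by
  rw [norm_pow]
  exact pow_le_one₀ (norm_nonneg _) (norm_sx_le _ _)

theorem in_tsum [∀ I : Ideal R, Decidable (I = 0)] (Q : R) {M : ℝ} (hM : 0 < M) :
    ∑' k : Ideal R, ((if k = 0 then 1 else Vw (Abs.W R) (Abs.w₀ R) (Ab.nm (rep k) / M) : ℝ) : ℂ) *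
      sx (rep k) Q ^ 3 = ((1 : ℝ) : ℂ) * sx 0 Q ^ 3 +
        ∑' k : Pr R, sx (k : R) Q ^ 3 * (Vw (Abs.W R) (Abs.w₀ R) (Ab.nm (k : R) / M) : ℂ) := by
  obtain ⟨C, hC⟩ := (in_WD (R := R)).V_le two_pos
  rw [← tsum_idl' (f := fun k => sx k Q ^ 3 * (Vw (Abs.W R) (Abs.w₀ R) (Ab.nm k / M) : ℂ))]
  · refine tsum_congr fun I => ?_
    split_ifs with h
    · rw [h, rep_zero]
    · exact mul_comm _ _
  · refine .of_norm_bounded ((p_summable (R := R) one_lt_two).mul_left (C / M ^ (-2 : ℝ))) fun k => ?_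
    have h0 := Ab.nm_pos (p_ne k.2)
    have h1 := hC _ (div_pos h0 hM)
    rw [Real.div_rpow h0.le hM.le, mul_div_left_comm, mul_comm] at h1
    rw [norm_mul, Complex.norm_real, Real.norm_of_nonneg (in_WD.V_nonneg (div_pos h0 hM))]
    exact (mul_le_of_le_one_left (in_WD.V_nonneg (div_pos h0 hM)) (in_norm _ _)).trans h1

variable (R) in
/-- the ideals of `R` -/
@[instance_reducible] noncomputable def inst : ED where
  O := Ideal R
  nm I := Ab.nm (rep I)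
  qd I J := sx (rep I) (rep J) ^ 3
  V := Vw (Abs.W R) (Abs.w₀ R)
  kp := (in_mel (R := R)).choose
  ι := Cl R
  fin := Ar.finC
  cl I := cls (rep I)
  unit_eq u hu := by rw [Ideal.isUnit_iff.1 hu, Ideal.one_eq_top]
  nm_mul a b := by rw [rep_mul, Ab.nm_mul]
  nm_one := by rw [rep_one, Ab.nm_unit isUnit_one]
  nm_zero := by rw [rep_zero, Ab.nm_eq_zero]
  one_le_nm a h := Ab.one_le_nm (p_ne (rep_prim h))
  two_le p h := Ab.two_le_nm (rep_prime h)
  finite_nm := rep_fin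
  card_le := rep_card
  qd_mul_left u v n := by rw [rep_mul, sx_mul_left, mul_pow]
  qd_mul_right u v n := by rw [rep_mul, sx_mul_right, mul_pow]
  qd_one_right u := by rw [rep_one, sx_unit_right _ isUnit_one, one_pow]
  qd_prime p u hp := by
    have h := sx_prime_eq_zero (u := rep u) (rep_prime hp)
    rw [rep_dvd] at h
    by_cases h1 : p ∣ u
    · exact Or.inl ⟨h1, by rw [h.2 h1, zero_pow three_ne_zero]⟩
    · exact Or.inr ⟨h1, (sx_cube_eq_or _ _).resolve_left (pow_ne_zero 3 (mt h.1 h1))⟩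
  recip := ⟨fun x b => hs x (cls (rep b)) ^ 3, fun x b => by simp, fun a b ha hb => by
    rw [sx_recip (rep_sqfree.2 ha).ne_zero (rep_sqfree.2 hb).ne_zero, mul_pow]⟩
  V_nonneg y hy := in_WD.V_nonneg hy
  V_low := in_WD.V_low
  V_le σ h := in_WD.V_le h
  poi a b d hab had hbd hc M hM := by
    have h1 := rep_sqfree.2 hab
    have h2 := (rep_sqfree.2 had).ne_zero
    have h3 := (rep_sqfree.2 hbd).ne_zero
    have h0 := Ab.nm_pos h1.ne_zero
    rw [rep_mul] at h1 h2 h3 h0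
    rw [rep_mul, rep_mul, cls_mul (left_ne_zero_of_mul h2) (right_ne_zero_of_mul h2),
      cls_mul (left_ne_zero_of_mul h3) (right_ne_zero_of_mul h3)] at hc
    rw [rep_mul, @in_tsum R _ _ _ _ (fun _ => Classical.propDecidable _) _ _ hM,
      @in_tsum R _ _ _ _ (fun _ => Classical.propDecidable _) _ _ (div_pos h0 hM)]
    exact in_WD.V_pois in_ND (fun k => in_norm _ _) h0 (in_pois h1 (mul_right_cancel hc)) M hM
  mel σ h0 h1 := by
    obtain ⟨ρ, hρ, h⟩ := (in_mel (R := R)).choose_spec σ h0 h1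
    refine ⟨ρ, hρ, fun Y hY => ?_⟩
    rw [@tsum_idl R _ _ _ _ (fun _ => Classical.propDecidable _) _ _ fun v => Vw (Abs.W R) (Abs.w₀ R) (Ab.nm v ^ 2 / Y)]
    exact h Y hY

end Crest.Agent.R27.E

namespace Crest.Agent.R27.Ab

open Crest.Agent.R27.E
open scoped Classical

/-- the quadratic large sieve -/
theorem stE (R : Type) [CommRing R] [IsDomain R] [IsPrincipalIdealRing R] [Abs R] : StE R := by
  intro ε hε
  obtain ⟨C, h⟩ := @sieve (inst R) ε hε
  refine ⟨C, fun K L A B a hK hL hA hB => ?_⟩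
  have key : ∀ (X : ℝ) (S : Finset R), (∀ k ∈ S, Sq X k) →
      (∀ k ∈ S, rep (Ideal.span {k}) = k) ∧ (∀ k ∈ S, ∀ l ∈ S, Ideal.span {k} = Ideal.span {l} → k = l) ∧
        ∀ I ∈ S.image fun k => Ideal.span {k}, @E.Sq (inst R) X I := fun X S hS => by
    have h1 : ∀ k ∈ S, rep (Ideal.span {k}) = k := fun k hk => rep_span (Or.inr (hS k hk).1)
    refine ⟨h1, fun k hk l hl e => by rw [← h1 k hk, e, h1 l hl], fun I hI => ?_⟩
    obtain ⟨k, hk, rfl⟩ := Finset.mem_image.1 hI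
    refine ⟨trivial, Ideal.squarefree_span_singleton.2 (hS k hk).2.1, trivial, ?_⟩
    change nm (rep _) ≤ X
    rw [h1 k hk]
    exact (hS k hk).2.2
  obtain ⟨a1, a2, a3⟩ := key K A hA
  obtain ⟨b1, b2, b3⟩ := key L B hB
  have h1 := h K L _ _ (fun I => a (rep I)) hK hL a3 b3
  change ∑ k ∈ A.image fun k => Ideal.span {k}, ‖∑ l ∈ B.image fun k => Ideal.span {k},
    a (rep l) * sx (rep l) (rep k) ^ 3‖ ^ 2 ≤ _ * ∑ l ∈ B.image fun k => Ideal.span {k}, ‖a (rep l)‖ ^ 2 at h1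
  simp only [Finset.sum_image a2, Finset.sum_image b2] at h1
  convert h1 using 2
  · rename_i k hk
    rw [a1 k hk]
    congr 2
    exact Finset.sum_congr rfl fun l hl => by rw [b1 l hl]
  · exact Finset.sum_congr rfl fun l hl => by rw [b1 l hl]

end Crest.Agent.R27.Ab
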