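import Crest.Agent.R27.E.Step
import Crest.Agent.R27.E.Dual

/-!
Row 27, block E: the quadratic large sieve.
-/

set_option autoImplicit false

namespace Crest.Agent.R27.E

open scoped Classical ComplexConjugate

variable [ED]

theorem HA_iter (n : ℕ) : HA (1 + 1 / ((n : ℝ) + 1)) := by
  induction n with
  | zero => convert base using 1; norm_num
  | succ n ih =>
    have h0 : (0 : ℝ) < (n : ℝ) + 1 := by positivity
    have h1 : 1 / ((n : ℝ) + 1) ≤ 1 := by
      rw [div_le_one h0]; linarith [Nat.cast_nonneg (α := ℝ) n]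
    have h2 : (0 : ℝ) < 1 / ((n : ℝ) + 1) := by positivity
    convert step (by linarith) (by linarith) ih.hb using 1
    push_cast
    field_simp
    ring

/-- the quadratic large sieve for `ED` -/
theorem sieve : ∀ ε : ℝ, 0 < ε → ∃ C : ℝ, ∀ (K L : ℝ) (A B : Finset O) (a : O → ℂ), 1 ≤ K → 1 ≤ L →
    (∀ k ∈ A, Sq K k) → (∀ l ∈ B, Sq L l) →
    ∑ k ∈ A, ‖∑ l ∈ B, a l * qd l k‖ ^ 2 ≤ C * (K * L) ^ ε * (K + L) * ∑ l ∈ B, ‖a l‖ ^ 2 := by
  intro ε hε
  obtain ⟨n, hn⟩ := exists_nat_one_div_lt (half_pos hε)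
  obtain ⟨C, hC, h⟩ := HA_iter n (ε / 2) (half_pos hε)
  refine ⟨C, fun K L A B a hK hL hA hB => ?_⟩
  have hB0 : 0 ≤ C * (L * K) ^ (ε / 2) * (L + K ^ (1 + 1 / ((n : ℝ) + 1))) := by positivity
  have h1 := ((h L K hL hK).sqB.sqT hB0) B A a hB hA
  refine h1.trans (mul_le_mul_of_nonneg_right ?_ (nsq_nonneg B a))
  have hKL : 1 ≤ K * L := one_le_mul_of_one_le_of_one_le hK hL
  have e1 : (K * L) ^ ε = (L * K) ^ (ε / 2) * (K * L) ^ (ε / 2) := by
    rw [mul_comm L K, ← Real.rpow_add (by positivity)]; congr 1; ring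
  have e2 : 1 ≤ (K * L) ^ (ε / 2) := Real.one_le_rpow hKL (by positivity)
  have e3 : K ^ (1 + 1 / ((n : ℝ) + 1)) ≤ K * (K * L) ^ (ε / 2) := by
    rw [Real.rpow_add (by positivity), Real.rpow_one]
    refine mul_le_mul_of_nonneg_left ?_ (by positivity)
    calc K ^ (1 / ((n : ℝ) + 1)) ≤ K ^ (ε / 2) := Real.rpow_le_rpow_of_exponent_le hK hn.le
      _ ≤ (K * L) ^ (ε / 2) :=
        Real.rpow_le_rpow (by positivity) (le_mul_of_one_le_right (by positivity) hL) (by positivity)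
  rw [e1]
  have e4 : L + K ^ (1 + 1 / ((n : ℝ) + 1)) ≤ (K * L) ^ (ε / 2) * (K + L) := by nlinarith
  calc C * (L * K) ^ (ε / 2) * (L + K ^ (1 + 1 / ((n : ℝ) + 1)))
      ≤ C * (L * K) ^ (ε / 2) * ((K * L) ^ (ε / 2) * (K + L)) :=
        mul_le_mul_of_nonneg_left e4 (by positivity)
    _ = _ := by ring

end Crest.Agent.R27.E
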