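import Crest.Agent.R27.E.Core

/-!
Row 27, block E: removing the dyadic condition; the base case and the recursion step.
-/

set_option autoImplicit false

namespace Crest.Agent.R27.E

open scoped Classical ComplexConjugate

variable [ED]

theorem RowB.mono {K K' N N' Bd Bd' : ℝ} (h : RowB K N Bd) (hK : K' ≤ K) (hN : N' ≤ N)
    (hB : Bd ≤ Bd') : RowB K' N' Bd' := by
  intro B C a h1 h2
  exact (h B C a (fun b hb => ⟨(h1 b hb).1, (h1 b hb).2.trans hK⟩)
    fun S hS => ⟨(h2 S hS).1, (h2 S hS).2.trans hN⟩).trans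
    (mul_le_mul_of_nonneg_right hB (nsq_nonneg _ _))

/-- there are no rows -/
theorem rowB_small {K N Bd : ℝ} (hK : K < 1) (hB : 0 ≤ Bd) : RowB K N Bd := by
  intro B C a h1 _
  rw [Finset.sum_eq_zero fun b hb =>
    absurd ((one_le_nm (h1 b hb).1.ne_zero).trans (h1 b hb).2) (not_le.2 hK)]
  exact mul_nonneg hB (nsq_nonneg _ _)

theorem stepa_block {x N : ℝ} (h1 : 1 ≤ x) (h2 : x ≤ N) :
    ∃ j : ℕ, x ≤ N / 2 ^ j ∧ N / 2 ^ j ≤ 2 * x := by
  obtain ⟨j, a1, a2⟩ := exists_nat_pow_near ((one_le_div (by linarith : 0 < x)).2 h2) one_lt_two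
  rw [le_div_iff₀ (by linarith)] at a1
  rw [div_lt_iff₀ (by linarith), pow_succ] at a2
  exact ⟨j, by rw [le_div_iff₀ (by positivity)]; linarith,
    by rw [div_le_iff₀ (by positivity)]; linarith⟩

theorem stepa_card {Z δ : ℝ} (hZ : 1 ≤ Z) (hδ : 0 < δ) {J : Finset ℕ}
    (h : ∀ j ∈ J, (2 : ℝ) ^ j ≤ Z) : (J.card : ℝ) ≤ (2 / δ + 1) * Z ^ δ := by
  have h0 := Real.log_nonneg hZ
  have h1 : J ⊆ Finset.range (⌊2 * Real.log Z⌋₊ + 1) := fun j hj => by
    have a1 := Real.log_le_log (by positivity) (h j hj)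
    rw [Real.log_pow] at a1
    have a2 := mul_le_mul_of_nonneg_left Real.log_two_gt_d9.le (Nat.cast_nonneg (α := ℝ) j)
    have a3 := Nat.cast_nonneg (α := ℝ) j
    exact Finset.mem_range.2 (Nat.lt_succ_of_le (Nat.le_floor (by linarith)))
  have h2 : (J.card : ℝ) ≤ ⌊2 * Real.log Z⌋₊ + 1 := by
    exact_mod_cast (Finset.card_le_card h1).trans_eq (Finset.card_range _)
  have h3 := Nat.floor_le (show 0 ≤ 2 * Real.log Z by positivity)
  have h4 := Real.log_le_rpow_div (show 0 ≤ Z by linarith) hδ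
  have h5 := Real.one_le_rpow hZ hδ.le
  rw [add_mul, div_mul_eq_mul_div, mul_div_assoc]
  linarith

omit [ED] in
theorem LL_mono {ε ε' N N' : ℝ} (h0 : 0 < ε) (h : ε ≤ ε') (hN : 1 ≤ N) (hN' : N ≤ N') : LL ε N ≤ LL ε' N' :=
  (Real.rpow_le_rpow (by linarith) hN' (lt_min h0 one_pos).le).trans
    (Real.rpow_le_rpow_of_exponent_le (hN.trans hN') (min_le_min_right _ h))

/-- removing the class condition -/
theorem core1 (ε : ℝ) (hε : 0 < ε) : ∃ C₀ : ℝ, 0 < C₀ ∧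
    ∀ (Z M N K D ξ : ℝ) (C : Finset (Finset O)) (a : Finset O → ℂ),
      1 ≤ M → M ≤ Z → 1 ≤ N → N ≤ Z → 0 < K → K ≤ Z → 1 ≤ D → 1 / 2 ≤ ξ → ξ ≤ 2 → Hyp K N D ξ →
      LL ε N * N ^ 2 ≤ K * M → Cols N C → (∀ S ∈ C, N ≤ 2 * NS S) →
      ∑' k : O, (if Big K k then gw M k * ‖As C a k‖ ^ 2 else 0) ≤
        C₀ * Z ^ ε * D * Out M N K ξ * nsq C a := by
  obtain ⟨C₁, hC₁, h1⟩ := core ε hε
  have := ED.fin
  have := Fintype.ofFinite ED.ι
  have : Nonempty ED.ι := ⟨cl 1⟩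
  have hc : (0 : ℝ) < Fintype.card ED.ι := by exact_mod_cast Fintype.card_pos
  refine ⟨Fintype.card ED.ι * C₁, by positivity, ?_⟩
  intro Z M N K D ξ C a hM hMZ hN hNZ hK hKZ hD hξ hξ' hH hL hC hC2
  have hM0 : 0 < M := by linarith
  have b2 : ∀ x, Cols N (C.filter fun S => cl (pr S) = x) := fun x S hS => hC S (Finset.mem_filter.1 hS).1
  have hs := fun x => summable_energy (K := K) hM0 (b2 x) a
  calc _ ≤ ∑' k : O, Fintype.card ED.ι * ∑ x, (if Big K k then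
        gw M k * ‖As (C.filter fun S => cl (pr S) = x) a k‖ ^ 2 else 0) := by
        refine (summable_energy hM0 hC a).tsum_le_tsum (fun k => ?_)
          ((summable_sum fun x _ => hs x).mul_left _)
        split_ifs
        · rw [← Finset.mul_sum, mul_left_comm, ← Finset.card_univ]
          refine mul_le_mul_of_nonneg_left (le_trans ?_ sq_sum_le_card_mul_sum_sq) (gw_nonneg hM0 k)
          refine pow_le_pow_left₀ (norm_nonneg _) (le_trans (le_of_eq ?_) (norm_sum_le _ _)) 2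
          simp only [As]
          rw [Finset.sum_fiberwise_of_maps_to (g := fun S => cl (pr S)) fun S _ => Finset.mem_univ _]
        · simp
    _ ≤ Fintype.card ED.ι * ∑ x, C₁ * Z ^ ε * D * Out M N K ξ * nsq (C.filter fun S => cl (pr S) = x) a := by
        rw [tsum_mul_left, Summable.tsum_finsetSum fun x _ => hs x]
        refine mul_le_mul_of_nonneg_left (Finset.sum_le_sum fun x _ => ?_) hc.le
        exact h1 Z M N K D ξ _ a hM hMZ hN hNZ hK hKZ hD hξ hξ' hH hL (b2 x)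
          (fun S hS => hC2 S (Finset.mem_filter.1 hS).1)
          fun S hS T hT => (Finset.mem_filter.1 hS).2.trans (Finset.mem_filter.1 hT).2.symm
    _ = _ := by
        rw [← Finset.mul_sum]
        simp only [nsq]
        rw [Finset.sum_fiberwise_of_maps_to (g := fun S => cl (pr S)) fun S _ => Finset.mem_univ _]
        ring

/-- Rows `nm b ≤ K`: `Hyp` at `(K, N)`.  Rows `K < nm b ≤ M` are big (`big_of_squarefree`) and
`exp (-cc) ≤ gw M b`.  Columns: blocks `j(S) = Nat.log 2 ⌊N / NS S⌋₊`, i.e.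
`N/2^(j+1) < NS S ≤ N/2^j`, `J ≤ 2 + 2 log Z` blocks, `‖∑_j A_j‖² ≤ J ∑_j ‖A_j‖²`
(`sq_sum_le_card_mul_sum_sq`), `core` with `N/2^j ≥ 1` (non-empty block), `Summable.sum_le_tsum`. -/
theorem core2 (ε : ℝ) (hε : 0 < ε) : ∃ C₀ : ℝ, 0 < C₀ ∧
    ∀ Z M N K D ξ : ℝ, 1 ≤ M → M ≤ Z → 1 ≤ N → N ≤ Z → 0 < K → K ≤ Z → 1 ≤ D → 1 / 2 ≤ ξ →
      ξ ≤ 2 → Hyp K N D ξ → LL ε N * N ^ 2 ≤ K * M →
      RowB M N (C₀ * Z ^ ε * D * Out M N K ξ) := by
  obtain ⟨C₁, hC₁, h1⟩ := core1 (ε / 2) (by positivity)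
  obtain ⟨c, hc, hV⟩ := ED.V_low
  refine ⟨1 + (2 / (ε / 2) + 1) * (c⁻¹ * C₁), by positivity, ?_⟩
  intro Z M N K D ξ hM hMZ hN hNZ hK hKZ hD hξ hξ' hH hL B C a hB hC
  have hZ : 1 ≤ Z := hM.trans hMZ
  have hn := nsq_nonneg C a
  have o1 : 0 ≤ Real.sqrt M * K ^ (ξ - 1 / 2) := by positivity
  have o2 : 0 ≤ K ^ ξ := by positivity
  have hO : K ^ ξ + N ≤ Out M N K ξ := by unfold Out; linarith
  have hO0 : 0 ≤ Out M N K ξ := by linarith
  have a1 : ∑ b ∈ B.filter (fun b => nm b ≤ K), ‖As C a b‖ ^ 2 ≤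
      Z ^ ε * D * Out M N K ξ * nsq C a := by
    refine (hH K N hK (by linarith) hN le_rfl _ C a (fun b hb => ⟨(hB b (Finset.mem_filter.1 hb).1).1,
      (Finset.mem_filter.1 hb).2⟩) hC).trans ?_
    calc _ = 1 * D * (K ^ ξ + N) * nsq C a := by ring
      _ ≤ _ := by
        gcongr
        exact Real.one_le_rpow hZ hε.le
  choose! j hj1 hj2 using fun S (hS : S ∈ C) => stepa_block (hC S hS).1.one_le_NS (hC S hS).2
  have a2 : ∀ i ∈ C.image j, 1 ≤ N / 2 ^ i := fun i hi => by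
    obtain ⟨S, hS, rfl⟩ := Finset.mem_image.1 hi
    exact (hC S hS).1.one_le_NS.trans (hj1 S hS)
  have a3 := stepa_card hZ (half_pos hε) (J := C.image j) fun i hi => by
    have := a2 i hi
    rw [one_le_div (by positivity)] at this
    exact this.trans hNZ
  have a4 : ∀ i ∈ C.image j, ∑ b ∈ B.filter (fun b => ¬ nm b ≤ K),
      ‖As (C.filter fun S => j S = i) a b‖ ^ 2 ≤
      c⁻¹ * C₁ * Z ^ (ε / 2) * D * Out M N K ξ * nsq (C.filter fun S => j S = i) a := by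
    intro i hi
    have b0 := a2 i hi
    have b1 : N / 2 ^ i ≤ N := div_le_self (by linarith) (one_le_pow₀ one_le_two)
    have b2 : Cols (N / 2 ^ i) (C.filter fun S => j S = i) := fun S hS => by
      obtain ⟨hS', rfl⟩ := Finset.mem_filter.1 hS
      exact ⟨(hC S hS').1, hj1 S hS'⟩
    have b3 := h1 Z M (N / 2 ^ i) K D ξ _ a hM hMZ b0 (b1.trans hNZ) hK hKZ hD hξ hξ'
      (fun K₀ N₀ c1 c2 c3 c4 => hH K₀ N₀ c1 c2 c3 (c4.trans b1)) (le_trans (by
        have := LL_mono (half_pos hε) (half_le_self hε.le) b0 b1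
        have h9 : 0 ≤ LL ε N := Real.rpow_nonneg (by linarith) _
        gcongr) hL) b2 fun S hS => by
        obtain ⟨hS', rfl⟩ := Finset.mem_filter.1 hS
        exact hj2 S hS'
    have hg : ∀ k : O, 0 ≤ gw M k := gw_nonneg (by linarith)
    have b4 := (summable_energy (K := K) (by linarith : 0 < M) b2 a).sum_le_tsum
      (B.filter fun b => ¬ nm b ≤ K) fun k _ => by
        have := hg k
        split_ifs <;> positivity
    have b5 : Out M (N / 2 ^ i) K ξ ≤ Out M N K ξ := by unfold Out; linarith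
    have b6 := nsq_nonneg (C.filter fun S => j S = i) a
    calc _ ≤ c⁻¹ * ∑ b ∈ B.filter (fun b => ¬ nm b ≤ K), (if Big K b then
          gw M b * ‖As (C.filter fun S => j S = i) a b‖ ^ 2 else 0) := by
          rw [Finset.mul_sum]
          refine Finset.sum_le_sum fun b hb => ?_
          obtain ⟨c1, c2⟩ := Finset.mem_filter.1 hb
          have c3 := (hB b c1).1.ne_zero
          rw [if_pos (big_of_squarefree (hB b c1).1 (not_le.1 c2)), ← mul_assoc, gw_eq _ c3]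
          refine le_mul_of_one_le_left (by positivity) ?_
          rw [inv_mul_eq_div, one_le_div hc]
          exact hV _ (div_pos (one_pos.trans_le (one_le_nm c3)) (by linarith))
            ((div_le_one (by linarith)).2 (hB b c1).2)
      _ ≤ c⁻¹ * (C₁ * Z ^ (ε / 2) * D * Out M N K ξ *
          nsq (C.filter fun S => j S = i) a) := by
          refine mul_le_mul_of_nonneg_left (b4.trans (b3.trans ?_)) (by positivity)
          gcongr
      _ = _ := by ring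
  have hm : ∀ S ∈ C, j S ∈ C.image j := fun S hS => Finset.mem_image_of_mem j hS
  have a5 : ∑ b ∈ B.filter (fun b => ¬ nm b ≤ K), ‖As C a b‖ ^ 2 ≤
      (C.image j).card * (c⁻¹ * C₁ * Z ^ (ε / 2) * D * Out M N K ξ * nsq C a) := by
    calc _ ≤ ∑ b ∈ B.filter (fun b => ¬ nm b ≤ K), (C.image j).card *
          ∑ i ∈ C.image j, ‖As (C.filter fun S => j S = i) a b‖ ^ 2 := by
          refine Finset.sum_le_sum fun b _ => le_trans ?_ sq_sum_le_card_mul_sum_sq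
          refine pow_le_pow_left₀ (norm_nonneg _) (le_trans (le_of_eq ?_) (norm_sum_le _ _)) 2
          simp only [As]
          rw [Finset.sum_fiberwise_of_maps_to hm]
      _ ≤ _ := by
          rw [← Finset.mul_sum, Finset.sum_comm]
          refine mul_le_mul_of_nonneg_left ((Finset.sum_le_sum a4).trans_eq ?_) (Nat.cast_nonneg _)
          rw [← Finset.mul_sum]
          simp only [nsq]
          rw [Finset.sum_fiberwise_of_maps_to hm]
  rw [← Finset.sum_filter_add_sum_filter_not B fun b => nm b ≤ K]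
  refine (add_le_add a1 (a5.trans (mul_le_mul_of_nonneg_right a3 (by positivity)))).trans_eq ?_
  have e : Z ^ ε = Z ^ (ε / 2) * Z ^ (ε / 2) := by
    rw [← Real.rpow_add (by linarith), add_halves]
  rw [e]
  ring

omit [ED] in
theorem stb_log {δ : ℝ} (hδ : 0 < δ) {K N : ℝ} (hK : 1 ≤ K) (hN : 1 ≤ N) :
    LL δ N ≤ (1 + 3 / δ) * (K * N) ^ δ := by
  have hP : N ≤ K * N := le_mul_of_one_le_left (by linarith) hK
  have h1 : LL δ N ≤ (K * N) ^ δ :=
    (Real.rpow_le_rpow_of_exponent_le hN (min_le_left _ _)).trans (Real.rpow_le_rpow (by linarith) hP hδ.le)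
  exact h1.trans (le_mul_of_one_le_left (by positivity) (le_add_of_nonneg_right (by positivity)))

theorem stb_pow {X A P η : ℝ} (hX : 0 ≤ X) (hA : 0 ≤ A) (hP : 0 ≤ P) (hη : 0 ≤ η)
    (h : X ≤ A * P ^ 3) : X ^ η ≤ A ^ η * (P ^ η) ^ 3 := by
  refine (Real.rpow_le_rpow hX h hη).trans_eq ?_
  rw [Real.mul_rpow hA (by positivity), ← Real.rpow_natCast, ← Real.rpow_natCast,
    ← Real.rpow_mul hP, ← Real.rpow_mul hP, mul_comm η]

omit [ED] in
theorem stb_L {δ N : ℝ} (hδ : 0 < δ) (hN : 1 ≤ N) : 1 ≤ LL δ N ∧ LL δ N ≤ 4 * N := by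
  refine ⟨Real.one_le_rpow hN (lt_min hδ one_pos).le, ?_⟩
  have := Real.rpow_le_rpow_of_exponent_le hN (min_le_right δ 1)
  rw [Real.rpow_one] at this
  exact this.trans (by linarith)

theorem stb_split {P ε : ℝ} (hP : 0 ≤ P) (n : ℕ) (hn : n ≠ 0) : (P ^ (ε / n)) ^ n = P ^ ε := by
  rw [← Real.rpow_natCast, ← Real.rpow_mul hP, div_mul_cancel₀ _ (Nat.cast_ne_zero.2 hn)]

theorem stb_out {ξ L N M : ℝ} (h1 : 1 ≤ ξ) (h2 : ξ ≤ 2) (hL1 : 1 ≤ L) (hN : 1 ≤ N) (hNM : N ≤ M)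
    (hM : N ^ (2 - 1 / ξ) ≤ M) : Out M N (L * N ^ 2 / M) ξ ≤ 4 * L ^ 2 * M := by
  unfold Out
  have hξ0 : 0 < ξ := by linarith
  have hN0 : 0 < N := by linarith
  have hM0 : 0 < M := by linarith
  have hl : 0 ≤ Real.log L := Real.log_nonneg hL1
  have hL0 : 0 < L := by linarith
  have hK'0 : 0 < L * N ^ 2 / M := by positivity
  have e1 : Real.log (L * N ^ 2 / M) = Real.log L + 2 * Real.log N - Real.log M := by
    rw [Real.log_div (by positivity) hM0.ne', Real.log_mul hL0.ne' (by positivity), Real.log_pow]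
    norm_num
  have e2 : L ^ 2 * M = Real.exp (2 * Real.log L + Real.log M) := by
    rw [Real.exp_add, Real.exp_log hM0, two_mul, Real.exp_add, Real.exp_log hL0, sq]
  have e3 : Real.sqrt M = Real.exp (Real.log M * (1 / 2)) := by
    rw [Real.sqrt_eq_rpow, Real.rpow_def_of_pos hM0]
  have f1 : Real.log N ≤ Real.log M := Real.log_le_log hN0 hNM
  have f2 : (2 * ξ - 1) * Real.log N ≤ ξ * Real.log M := by
    have f3 : (2 - 1 / ξ) * Real.log N ≤ Real.log M := by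
      rw [← Real.log_rpow hN0]
      exact Real.log_le_log (by positivity) hM
    have f4 : (2 * ξ - 1) * Real.log N = ξ * ((2 - 1 / ξ) * Real.log N) := by
      field_simp
    rw [f4]
    gcongr
  have f5 : 0 ≤ (2 - ξ) * Real.log L := mul_nonneg (by linarith) hl
  have g1 : Real.sqrt M * (L * N ^ 2 / M) ^ (ξ - 1 / 2) ≤ L ^ 2 * M := by
    rw [e2, e3, Real.rpow_def_of_pos hK'0, ← Real.exp_add, e1, Real.exp_le_exp]
    linarith
  have g2 : (L * N ^ 2 / M) ^ ξ ≤ L ^ 2 * M := by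
    rw [e2, Real.rpow_def_of_pos hK'0, e1, Real.exp_le_exp]
    linarith
  have g3 : M ≤ L ^ 2 * M := le_mul_of_one_le_left hM0.le (one_le_pow₀ hL1)
  linarith

/-- `L = 1 + 3 log N`, `M' = K + 4 L N²`, `K' = 1/4`, `D = 1`, `ξ = 1`, `Z = M'`; `Hyp` by `rowB_small`;
`Out ≤ 4 M'`, `L ≤ C N^δ` -/
theorem base : HA 2 := by
  intro ε hε
  have hδ : 0 < ε / (4 : ℕ) := by positivity
  obtain ⟨C₀, hC₀, hc⟩ := core2 _ hδ
  set δ : ℝ := ε / (4 : ℕ) with hδe
  refine ⟨C₀ * 17 ^ δ * (16 * (1 + 3 / δ)), by positivity, fun K N hK hN => ?_⟩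
  obtain ⟨hL1, hL2⟩ := stb_L hδ hN
  have hL3 := stb_log hδ hK hN
  have hlog := Real.log_nonneg hN
  set L := LL δ N with hL
  have hN2 : N ≤ N ^ 2 := by nlinarith
  have hLN : N ^ 2 ≤ L * N ^ 2 := le_mul_of_one_le_left (by positivity) hL1
  have hM1 : 1 ≤ K + 4 * L * N ^ 2 := by nlinarith
  have hNM : N ≤ K + 4 * L * N ^ 2 := by nlinarith
  have hrow := hc (K + 4 * L * N ^ 2) (K + 4 * L * N ^ 2) N (1 / 4) 1 1 hM1 le_rfl hN hNM
    (by norm_num) (by linarith) le_rfl (by norm_num) (by norm_num)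
    (fun K₀ N₀ h0 h1 h2 _ => rowB_small (by linarith) (by positivity))
    (by rw [← hL]; nlinarith [sq_nonneg N])
  refine hrow.mono (by nlinarith) le_rfl ?_
  set M := K + 4 * L * N ^ 2 with hM
  have hP : 1 ≤ K * N := by nlinarith
  have hPN : N ≤ K * N := le_mul_of_one_le_left (by linarith) hK
  have hPK : K ≤ K * N := le_mul_of_one_le_right (by linarith) hN
  have hout : Out M N (1 / 4) 1 ≤ 4 * M := by
    unfold Out
    have h1 : Real.sqrt M ≤ M := by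
      rw [Real.sqrt_le_left (by linarith)]; nlinarith
    have h2 : (1 / 4 : ℝ) ^ (1 - 1 / 2 : ℝ) ≤ 1 :=
      Real.rpow_le_one (by norm_num) (by norm_num) (by norm_num)
    have h3 : Real.sqrt M * (1 / 4 : ℝ) ^ (1 - 1 / 2 : ℝ) ≤ M * 1 :=
      mul_le_mul h1 h2 (by positivity) (by linarith)
    rw [Real.rpow_one]
    linarith
  have hM3 : M ≤ 17 * (K * N) ^ 3 := by
    have h1 : K * N ≤ (K * N) ^ 3 := le_self_pow₀ hP (by norm_num)
    have h2 : N ^ 3 ≤ (K * N) ^ 3 := pow_le_pow_left₀ (by linarith) hPN 3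
    have h3 : L * N ^ 2 ≤ 4 * N * N ^ 2 := mul_le_mul_of_nonneg_right hL2 (by positivity)
    nlinarith
  have hZ := stb_pow (by linarith) (by norm_num) (by linarith) hδ.le hM3
  have hM4 : M ≤ 4 * ((1 + 3 / δ) * (K * N) ^ δ) * (K + N ^ 2) := by
    have h1 : M ≤ 4 * L * (K + N ^ 2) := by nlinarith
    exact h1.trans (by gcongr)
  rw [Real.rpow_two, ← stb_split (by linarith : 0 ≤ K * N) 4 (by norm_num), ← hδe]
  calc C₀ * M ^ δ * 1 * Out M N (1 / 4) 1
      ≤ C₀ * (17 ^ δ * ((K * N) ^ δ) ^ 3) * 1 *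
        (4 * (4 * ((1 + 3 / δ) * (K * N) ^ δ) * (K + N ^ 2))) := by
        have : 0 ≤ Out M N (1 / 4) 1 := by unfold Out; positivity
        gcongr
        linarith
    _ = _ := by ring

/-- `ξ' = 2 - 1/ξ ∈ [1, 3/2]`, `M' = K + N^ξ' ≥ N`, `L = 1 + 3 log N`, `K' = L N² / M' ≤ L N`, `Z = L M'`,
`D = max 1 C₁ · (2 L N²)^δ`; `Hyp` from `HB` (`rowB_small` for `K₀ < 1`);
`N² / M' ≤ …`: `M'^ξ ≥ N^(2ξ-1)` gives `√M' (N²/M')^(ξ-1/2) ≤ M'`, so `√M' K'^(ξ-1/2) ≤ L² M'` and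
`K'^ξ = K'^(1/2) K'^(ξ-1/2) ≤ L³ M'`. -/
theorem step {ξ : ℝ} (h1 : 1 ≤ ξ) (h2 : ξ ≤ 2) (h : HB ξ) : HA (2 - 1 / ξ) := by
  intro ε hε
  have hδ : 0 < ε / (8 : ℕ) := by positivity
  obtain ⟨C₀, hC₀, hc⟩ := core2 _ hδ
  obtain ⟨C₁, hC₁, hb⟩ := h _ hδ
  set δ : ℝ := ε / (8 : ℕ) with hδe
  have hmax : 1 ≤ max 1 C₁ := le_max_left _ _
  refine ⟨C₀ * 8 ^ δ * (max 1 C₁ * 8 ^ δ) * (4 * (1 + 3 / δ) ^ 2), by positivity,
    fun K N hK hN => ?_⟩
  obtain ⟨hL1, hL2⟩ := stb_L hδ hN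
  have hL3 := stb_log hδ hK hN
  have hlog := Real.log_nonneg hN
  set L := LL δ N with hL
  have hξ0 : 0 < ξ := by linarith
  have hi1 : 1 / ξ ≤ 1 := by rw [div_le_one hξ0]; exact h1
  have hi2 : 0 < 1 / ξ := by positivity
  have hN0 : 0 < N := by linarith
  have hNx : N ≤ N ^ (2 - 1 / ξ) := by
    simpa using Real.rpow_le_rpow_of_exponent_le hN (show (1 : ℝ) ≤ 2 - 1 / ξ by linarith)
  have hNx2 : N ^ (2 - 1 / ξ) ≤ N ^ 2 := by
    rw [← Real.rpow_two]
    exact Real.rpow_le_rpow_of_exponent_le hN (by linarith)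
  set M := K + N ^ (2 - 1 / ξ) with hM
  have hNM : N ≤ M := by linarith
  have hM1 : 1 ≤ M := by linarith
  have hM0 : 0 < M := by linarith
  have hK'0 : 0 < L * N ^ 2 / M := by positivity
  have hK' : L * N ^ 2 / M ≤ L * N := by
    rw [div_le_iff₀ hM0, sq, mul_assoc]
    gcongr
  have hMZ : M ≤ L * M := le_mul_of_one_le_left hM0.le hL1
  have h2L : 1 ≤ 2 * L * N ^ 2 := by nlinarith
  have hD : 1 ≤ max 1 C₁ * (2 * L * N ^ 2) ^ δ :=
    one_le_mul_of_one_le_of_one_le hmax (Real.one_le_rpow h2L hδ.le)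
  have hrow := hc (L * M) M N (L * N ^ 2 / M) (max 1 C₁ * (2 * L * N ^ 2) ^ δ) ξ hM1 hMZ hN
    (hNM.trans hMZ) hK'0 (hK'.trans (by gcongr)) hD (by linarith) h2
    (fun K₀ N₀ g0 g1 g2 g3 => by
      rcases lt_or_ge K₀ 1 with g4 | g4
      · exact rowB_small g4 (by positivity)
      · refine (hb K₀ N₀ g4 g2).mono le_rfl le_rfl ?_
        have g5 : K₀ * N₀ ≤ 2 * L * N ^ 2 := by
          calc K₀ * N₀ ≤ (2 * (L * N)) * N := by gcongr; linarith
            _ = _ := by ring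
        gcongr
        exact le_max_right _ _)
    (by rw [div_mul_cancel₀ _ hM0.ne'])
  refine hrow.mono (by linarith [Real.rpow_nonneg hN0.le (2 - 1 / ξ)]) le_rfl ?_
  have hPN : N ≤ K * N := le_mul_of_one_le_left (by linarith) hK
  have hP : 1 ≤ K * N := hN.trans hPN
  have hPK : K ≤ K * N := le_mul_of_one_le_right (by linarith) hN
  have hout := stb_out h1 h2 hL1 hN hNM (by rw [hM]; linarith : N ^ (2 - 1 / ξ) ≤ M)
  have hN3 : N ^ 3 ≤ (K * N) ^ 3 := pow_le_pow_left₀ (by linarith) hPN 3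
  have hZ3 : L * M ≤ 8 * (K * N) ^ 3 := by
    have g1 : K ≤ (K * N) ^ 2 := hPK.trans (le_self_pow₀ hP (by norm_num))
    have g2 : N ^ 2 ≤ (K * N) ^ 2 := pow_le_pow_left₀ (by linarith) hPN 2
    calc L * M ≤ (4 * (K * N)) * (2 * (K * N) ^ 2) := by gcongr <;> linarith
      _ = _ := by ring
  have hD3 : 2 * L * N ^ 2 ≤ 8 * (K * N) ^ 3 := by
    have g3 : L * N ^ 2 ≤ 4 * N * N ^ 2 := mul_le_mul_of_nonneg_right hL2 (by positivity)
    linarith
  have hZ := stb_pow (by positivity) (by norm_num) (by linarith) hδ.le hZ3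
  have hD' := stb_pow (by positivity) (by norm_num) (by linarith) hδ.le hD3
  rw [← stb_split (by linarith : 0 ≤ K * N) 8 (by norm_num), ← hδe]
  calc C₀ * (L * M) ^ δ * (max 1 C₁ * (2 * L * N ^ 2) ^ δ) * Out M N (L * N ^ 2 / M) ξ
      ≤ C₀ * (8 ^ δ * ((K * N) ^ δ) ^ 3) * (max 1 C₁ * (8 ^ δ * ((K * N) ^ δ) ^ 3)) *
        (4 * ((1 + 3 / δ) * (K * N) ^ δ) ^ 2 * M) := by
        have : 0 ≤ Out M N (L * N ^ 2 / M) ξ := by unfold Out; positivity
        gcongr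
        exact hout.trans (by gcongr)
    _ = _ := by ring

end Crest.Agent.R27.E
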